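import Vale.Agent.P299.H908.Proj
import Vale.Agent.P300.Final.Defs
import Mathlib.Topology.MetricSpace.HausdorffDimension

/-!
# P284 (helper998), module Z: statement

`ZStmt`: on a smooth projective manifold `X` of dimension `n` and for a holomorphic submersion germ
`f : (X, x₀) → ℂᴿ`, `1 ≤ R ≤ n`, there is a compact connected complex `R`-manifold `Z` whose canonical
bundle has a smooth metric of positive curvature, and a holomorphic map `j : Z → X` such that `f ∘ j`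
is a local biholomorphism at a point `z₁` with `j z₁` as near to `x₀` as we like.
-/

open scoped Manifold ContDiff Topology ComplexOrder
open Filter

noncomputable section

namespace Vale.Agent.P284.H998

open Vale.Agent.P272.K Vale.Agent.P299.H908

/-- Homogeneous coordinates of a holomorphic immersion (not necessarily injective) of `X` into a
projective space. -/
structure PJ (n : ℕ) (X : Type) [TopologicalSpace X] [ChartedSpace (Cm n) X]
    (ι : Type) [Fintype ι] where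
  Z : X → ι → ℂ
  ne : ∀ x, Z x ≠ 0
  opn : ∀ i, IsOpen {x | Z x i ≠ 0}
  hol : ∀ x i, Z x i ≠ 0 → ∀ j, HolAt n (fun y => Z y j / Z y i) x
  imm : ∀ e x, At e x → ∀ i, Z x i ≠ 0 → ∀ v : Cm n,
    (∀ j, fderiv ℂ (fun z => Z (e.symm z) j / Z (e.symm z) i) (e x) v = 0) → v = 0

/-- one hypersurface section -/
def StepStmt : Prop :=
  ∀ (n R : ℕ) (_ : 1 ≤ n) (_ : R ≤ n) (X : Type) [TopologicalSpace X] [T2Space X] [CompactSpace X]
    [ChartedSpace (Cm (n + 1)) X] [IsManifold 𝓘(ℂ, Cm (n + 1)) ω X]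
    (ι : Type) [Fintype ι] (_ : PJ (n + 1) X ι)
    (e : Chart (n + 1) X) (x₀ : X) (_ : At e x₀) (W : Set X) (_ : W ∈ 𝓝 x₀)
    (f : Cm (n + 1) → Cm R) (_ : AnalyticAt ℂ f (e x₀))
    (_ : Function.Surjective (fderiv ℂ f (e x₀))),
    ∃ (Z : Type) (_ : TopologicalSpace Z) (_ : T2Space Z) (_ : CompactSpace Z)
      (_ : ConnectedSpace Z) (_ : ChartedSpace (Cm n) Z) (_ : IsManifold 𝓘(ℂ, Cm n) ω Z)
      (j : Z → X) (_ : ContMDiff 𝓘(ℂ, Cm n) 𝓘(ℂ, Cm (n + 1)) ω j)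
      (κ : Type) (_ : Fintype κ) (_ : PJ n Z κ)
      (w : Chart n Z → Cm n → ℝ) (_ : IsCanonicalMetric w)
      (_ : ∀ c z, At c z → (cHess (w c) (c z)).PosDef)
      (z₁ : Z) (c : Chart n Z), At c z₁ ∧ j z₁ ∈ W ∧ At e (j z₁) ∧
        AnalyticAt ℂ (fun y => f (e (j (c.symm y)))) (c z₁) ∧
        Function.Surjective (fderiv ℂ (fun y => f (e (j (c.symm y)))) (c z₁))

/-- homogeneous coordinates of a smooth projective manifold -/
def PJStmt : Prop :=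
  ∀ (n : ℕ) (X : Type) [TopologicalSpace X] [ChartedSpace (Cm n) X] [IsManifold 𝓘(ℂ, Cm n) ω X],
    Vale.Agent.P300.Final.IsSmoothProjective (Cm n) X →
    ∃ (ι : Type) (_ : Fintype ι), Nonempty (PJ n X ι)

/-- **Module Z.** -/
def ZStmt : Prop :=
  ∀ (n R : ℕ) (_ : 1 ≤ R) (_ : R ≤ n) (X : Type) [TopologicalSpace X] [T2Space X] [CompactSpace X]
    [ChartedSpace (Cm n) X] [IsManifold 𝓘(ℂ, Cm n) ω X]
    (ι : Type) [Fintype ι] (_ : PJ n X ι)
    (e : Chart n X) (x₀ : X) (_ : At e x₀) (W : Set X) (_ : W ∈ 𝓝 x₀)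
    (f : Cm n → Cm R) (_ : AnalyticAt ℂ f (e x₀))
    (_ : Function.Surjective (fderiv ℂ f (e x₀))),
    ∃ (Z : Type) (_ : TopologicalSpace Z) (_ : T2Space Z) (_ : CompactSpace Z)
      (_ : ConnectedSpace Z) (_ : ChartedSpace (Cm R) Z) (_ : IsManifold 𝓘(ℂ, Cm R) ω Z)
      (j : Z → X) (_ : ContMDiff 𝓘(ℂ, Cm R) 𝓘(ℂ, Cm n) ω j)
      (w : Chart R Z → Cm R → ℝ) (_ : IsCanonicalMetric w)
      (_ : ∀ c z, At c z → (cHess (w c) (c z)).PosDef)
      (z₁ : Z) (c : Chart R Z), At c z₁ ∧ j z₁ ∈ W ∧ At e (j z₁) ∧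
        AnalyticAt ℂ (fun y => f (e (j (c.symm y)))) (c z₁) ∧
        Function.Bijective (fderiv ℂ (fun y => f (e (j (c.symm y)))) (c z₁))

/-- local Bertini: the coefficients `a` for which `∑ aⱼ uⱼ` has a zero of order `≥ 2` near `z₀` -/
def BadStmt : Prop :=
  ∀ (n : ℕ) (ι : Type) [Fintype ι] (u : ι → Cm n → ℂ) (z₀ : Cm n)
    (_ : ∀ j, AnalyticAt ℂ (u j) z₀)
    (_ : ∀ (c : ℂ) (l : Cm n →L[ℂ] ℂ), ∃ a : ι → ℂ,
      ∑ j, a j * u j z₀ = c ∧ ∑ j, a j • fderiv ℂ (u j) z₀ = l),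
    ∃ U ∈ 𝓝 z₀, dimH {a : ι → ℂ | ∃ z ∈ U, ∑ j, a j * u j z = 0 ∧
      ∑ j, a j • fderiv ℂ (u j) z = 0} < Module.finrank ℝ (ι → ℂ)

end Vale.Agent.P284.H998
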