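import Vale.Agent.P284.H998.Z5
import Vale.Agent.P284.H212.Pos

/-!
# P284 (helper998), module Z: `ZStmt`
-/

open scoped Manifold ContDiff Topology ComplexOrder Matrix
open Filter Set

noncomputable section

namespace Vale.Agent.P284.H998

open Vale.Agent.P272.K Vale.Agent.P299.H908 Vale.Agent.P284.H730.G
open Vale.Agent.P272.K.Prod

theorem posStmt : PosStmt := by
  intro n X _ _ _ _ _ ι _ D
  obtain ⟨d, hd, w, hw, hpos⟩ := Vale.Agent.P284.H212.exists_pos D
  exact ⟨Fin d → ι, inferInstance, Vale.Agent.P284.H212.pjPow D d hd, w, hw,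
    fun e x he I hI => hpos e x he I hI⟩

theorem stepStmt : StepStmt := stepStmt_of posStmt

/-- the conclusion of `ZStmt` -/
def Concl {n R : ℕ} {X : Type} [TopologicalSpace X] [ChartedSpace (Cm n) X]
    (e : Chart n X) (W : Set X) (f : Cm n → Cm R) : Prop :=
  ∃ (Z : Type) (_ : TopologicalSpace Z) (_ : T2Space Z) (_ : CompactSpace Z)
      (_ : ConnectedSpace Z) (_ : ChartedSpace (Cm R) Z) (_ : IsManifold 𝓘(ℂ, Cm R) ω Z)
      (j : Z → X) (_ : ContMDiff 𝓘(ℂ, Cm R) 𝓘(ℂ, Cm n) ω j)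
      (w : Chart R Z → Cm R → ℝ) (_ : IsCanonicalMetric w)
      (_ : ∀ c z, At c z → (cHess (w c) (c z)).PosDef)
      (z₁ : Z) (c : Chart R Z), At c z₁ ∧ j z₁ ∈ W ∧ At e (j z₁) ∧
        AnalyticAt ℂ (fun y => f (e (j (c.symm y)))) (c z₁) ∧
        Function.Surjective (fderiv ℂ (fun y => f (e (j (c.symm y)))) (c z₁))

/-- iterated hypersurface sections -/
theorem down (R : ℕ) (hR : 1 ≤ R) : ∀ (k m : ℕ) (_ : m = R + (k + 1)) (X : Type)
    [TopologicalSpace X] [T2Space X] [CompactSpace X] [ChartedSpace (Cm m) X]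
    [IsManifold 𝓘(ℂ, Cm m) ω X] (ι : Type) [Fintype ι] (_ : PJ m X ι)
    (e : Chart m X) (x₀ : X) (_ : At e x₀) (W : Set X) (_ : W ∈ 𝓝 x₀)
    (f : Cm m → Cm R) (_ : AnalyticAt ℂ f (e x₀))
    (_ : Function.Surjective (fderiv ℂ f (e x₀))), Concl e W f := by
  intro k
  induction k with
  | zero =>
    intro m hm X _ _ _ _ _ ι _ D e x₀ he W hW f hf hs
    subst hm
    obtain ⟨Z, h1, h2, h3, h4, h5, h6, j, h7, κ, hκ, D', w, h8, h9, z₁, c, h10⟩ :=
      stepStmt R R hR le_rfl X ι D e x₀ he W hW f hf hs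
    exact ⟨Z, h1, h2, h3, h4, h5, h6, j, h7, w, h8, h9, z₁, c, h10⟩
  | succ k ih =>
    intro m hm X _ _ _ _ _ ι _ D e x₀ he W hW f hf hs
    subst hm
    obtain ⟨Z, h1, h2, h3, h4, h5, h6, j, h7, κ, hκ, D', w, h8, h9, z₁, c, h10, h11, h12, h13, h14⟩ :=
      stepStmt (R + (k + 1)) R (by omega) (by omega) X ι D e x₀ he (interior W)
        (interior_mem_nhds.2 hW) f hf hs
    have hW' : j ⁻¹' (interior W ∩ e.source) ∩ c.source ∈ 𝓝 z₁ :=
      Filter.inter_mem ((h7.continuous.continuousAt).preimage_mem_nhds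
        ((isOpen_interior.inter e.open_source).mem_nhds ⟨h11, h12.2⟩))
        (c.open_source.mem_nhds h10.2)
    obtain ⟨Z', h1', h2', h3', h4', h5', h6', j', h7', w', h8', h9', z₂, c', h10', h11', h12',
      h13', h14'⟩ := ih (R + (k + 1)) rfl Z κ D' c z₁ h10 _ hW'
        (fun y => f (e (j (c.symm y)))) h13 h14
    have hev : (fun y => f (e (j (c.symm (c (j' (c'.symm y))))))) =ᶠ[𝓝 (c' z₂)]
        fun y => f (e (j (j' (c'.symm y)))) := by
      have h20 : ContinuousAt (fun y => j' (c'.symm y)) (c' z₂) :=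
        h7'.continuous.continuousAt.comp (c'.continuousAt_symm h10'.mem_target)
      have h21 : c.source ∈ 𝓝 (j' (c'.symm (c' z₂))) := by
        rw [h10'.left_inv]
        exact c.open_source.mem_nhds h12'.2
      filter_upwards [h20.eventually h21] with y hy
      rw [c.left_inv hy]
    refine ⟨Z', h1', h2', h3', h4', h5', h6', fun z => j (j' z), h7.comp h7', w', h8', h9', z₂, c',
      h10', interior_subset h11'.1.1, ⟨he.1, h11'.1.2⟩, h13'.congr hev, ?_⟩
    rw [← hev.fderiv_eq]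
    exact h14'

section
variable {n m : ℕ} {X Y : Type} [TopologicalSpace X] [TopologicalSpace Y]
  [ChartedSpace (Cm n) X] [ChartedSpace (Cm m) Y]

attribute [local instance] prodCS

lemma contMDiff_fst' [IsManifold 𝓘(ℂ, Cm n) ω X] [IsManifold 𝓘(ℂ, Cm m) ω Y] :
    ContMDiff 𝓘(ℂ, Cm (n + m)) 𝓘(ℂ, Cm n) ω (Prod.fst : X × Y → X) := by
  intro p
  rw [contMDiffAt_iff]
  refine ⟨continuous_fst.continuousAt, ?_⟩
  have h1 : ContDiffAt ℂ ω (fstP : Cm (n + m) → Cm n) (pc (chartAt (Cm n) p.1)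
      (chartAt (Cm m) p.2) p) := (Vale.Agent.P284.H212.analyticAt_fstP _).contDiffAt
  refine ContDiffAt.contDiffWithinAt (h1.congr_of_eventuallyEq ?_)
  have h2 : (pc (chartAt (Cm n) p.1) (chartAt (Cm m) p.2)).target ∈
      𝓝 (pc (chartAt (Cm n) p.1) (chartAt (Cm m) p.2) p) :=
    (pc (chartAt (Cm n) p.1) (chartAt (Cm m) p.2)).open_target.mem_nhds
      ((pc (chartAt (Cm n) p.1) (chartAt (Cm m) p.2)).map_source
        (mem_chart_source (Cm (n + m)) p))
  filter_upwards [h2] with z hz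
  rw [mem_pc_target] at hz
  exact (chartAt (Cm n) p.1).right_inv hz.1

end

attribute [local instance] prodCS in
theorem zStmt : ZStmt := by
  intro n R hR hRn X _ _ _ _ _ ι _ D e x₀ he W hW f hf hs
  haveI : IsManifold 𝓘(ℂ, Cm (n + n)) ω (X × X) := isManifold_prod
  obtain ⟨k, hk⟩ : ∃ k, n + n = R + (k + 1) := ⟨n + n - R - 1, by omega⟩
  have hE : At (pc e e) (x₀, x₀) := at_pc he he
  have hW' : Prod.fst ⁻¹' W ∈ 𝓝 (x₀, x₀) := continuous_fst.continuousAt.preimage_mem_nhds hW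
  have hz : fstP ((pc e e) (x₀, x₀)) = e x₀ := by simp
  have hf' : AnalyticAt ℂ (fun z : Cm (n + n) => f (fstP z)) ((pc e e) (x₀, x₀)) := by
    refine AnalyticAt.comp (g := f) ?_ (Vale.Agent.P284.H212.analyticAt_fstP _)
    rw [hz]; exact hf
  have hs' : Function.Surjective (fderiv ℂ (fun z : Cm (n + n) => f (fstP z))
      ((pc e e) (x₀, x₀))) := by
    have h1 : HasFDerivAt f (fderiv ℂ f (e x₀)) (fstP ((pc e e) (x₀, x₀))) := by
      rw [hz]; exact hf.differentiableAt.hasFDerivAt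
    have h2 := h1.comp ((pc e e) (x₀, x₀)) (Vale.Agent.P284.H212.hasFDerivAt_fstP _)
    have h3 : fderiv ℂ (fun z : Cm (n + n) => f (fstP z)) ((pc e e) (x₀, x₀)) = _ := h2.fderiv
    rw [h3]
    intro r
    obtain ⟨ξ, hξ⟩ := hs r
    refine ⟨glue ξ 0, ?_⟩
    show fderiv ℂ f (e x₀) (fstP (glue ξ 0)) = r
    rw [fstP_glue, hξ]
  obtain ⟨Z, h1, h2, h3, h4, h5, h6, j, h7, w, h8, h9, z₁, c, h10, h11, h12, h13, h14⟩ :=
    down R hR k (n + n) hk (X × X) (ι × ι) (Vale.Agent.P284.H212.pjProd D D) (pc e e) (x₀, x₀) hE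
      _ hW' (fun z => f (fstP z)) hf' hs'
  have h15 : (fun y => f (fstP ((pc e e) (j (c.symm y))))) =
      fun y => f (e ((j (c.symm y)).1)) := by
    funext y
    simp
  rw [h15] at h13 h14
  refine ⟨Z, h1, h2, h3, h4, h5, h6, fun z => (j z).1, contMDiff_fst'.comp h7, w, h8, h9, z₁, c,
    h10, h11, ⟨he.1, ?_⟩, h13, ?_, h14⟩
  · have := h12.2
    rw [pc_source] at this
    exact this.1
  · have hfr := LinearMap.injective_iff_surjective_of_finrank_eq_finrank
      (f := (fderiv ℂ (fun y => f (e ((j (c.symm y)).1))) (c z₁) : Cm R →ₗ[ℂ] Cm R)) rfl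
    exact hfr.2 h14

end Vale.Agent.P284.H998
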