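import Vale.Agent.P284.H395.StkS

/-!
# P284 (helper998): the statement of the decomposition lemma for `StkUStmt`

Near every point at which `v` does not vanish, `v (ξ) = det (A ξ) ^ m • g` with `A`, `g` analytic,
`g ≠ 0`, and `i∂∂̄ log ‖g‖²` has rank at most `s`.
-/

open scoped Manifold ContDiff Topology ComplexConjugate ComplexOrder
open Filter Set Metric

noncomputable section

namespace Vale.Agent.P284.H998

open Vale.Agent.P272.K Vale.Agent.P284.H573 Vale.Agent.P284.H395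

/-- `v (ξ) = det (A ξ) ^ m • g` near `y` (in the chart `e`), with `A`, `g` analytic, `g ≠ 0`,
`det (A ξ) ≠ 0` for some `ξ`, and `i∂∂̄ log ‖g‖²` of rank at most `s`. -/
def DecAt {n : ℕ} {X E : Type} [TopologicalSpace X] [ChartedSpace (Cm n) X] [TopologicalSpace E]
    (p : E → X) (R m s : ℕ) {H : Type} [NormedAddCommGroup H] [InnerProductSpace ℂ H]
    (v : E → Chart n X → (Fin R → Cm n) → H) (y : E) (e : Chart n X) : Prop :=
  ∃ (A : Cm n → Matrix (Fin R) (Fin n) ℂ) (g : Cm n → H),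
    (∀ i k, AnalyticAt ℂ (fun z => A z i k) (e (p y))) ∧ AnalyticAt ℂ g (e (p y)) ∧
    g (e (p y)) ≠ 0 ∧
    (∃ ξ : Fin R → Cm n, (A (e (p y)) * Matrix.of fun k j => ξ j k).det ≠ 0) ∧
    (∀ᶠ y' in 𝓝 y, ∀ ξ : Fin R → Cm n,
      v y' e ξ = (A (e (p y')) * Matrix.of fun k j => ξ j k).det ^ m • g (e (p y'))) ∧
    (cHess (fun z => Real.log (‖g z‖ ^ 2)) (e (p y))).rank ≤ s

/-- **DecStmt** (helper335). -/
def DecStmt : Prop :=
  ∀ (n : ℕ) (X : Type) [TopologicalSpace X] [T2Space X] [CompactSpace X]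
    [ChartedSpace (Cm n) X] [IsManifold 𝓘(ℂ, Cm n) ω X]
    (E : Type) [TopologicalSpace E] [ConnectedSpace E] (p : E → X) (_ : IsCoveringMap p)
    (_ : Function.Surjective p)
    (H : Type) [NormedAddCommGroup H] [InnerProductSpace ℂ H] [CompleteSpace H]
    (R m s : ℕ) (_ : 1 ≤ R) (_ : 1 ≤ m) (v : E → Chart n X → (Fin R → Cm n) → H)
    (_ : HForm n R m p H v) (y₀ : E) (_ : NFAt p R m s v y₀)
    (y : E) (e : Chart n X), At e (p y) → NZ p v y → DecAt p R m s v y e

end Vale.Agent.P284.H998
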