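import Vale.Agent.P284.H998.StkU5
import Vale.Agent.P284.H335.Dec

/-!
# P284 (helper998, helper335): `StkUStmt`
-/

namespace Vale.Agent.P284.H998

/-- **StkU** -/
theorem stkUStmt : Vale.Agent.P284.H395.StkUStmt := U.stkU_of Vale.Agent.P284.H335.decStmt

end Vale.Agent.P284.H998
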