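import Vale.Agent.P284.H213.KL.SK1
import Vale.Agent.P272.K.Inv.Compact
import Vale.Agent.P272.K.Inv.Hess

/-!
# P284 (helper998), `StkUStmt`, part 1: the Levi form of `log Σ θ_i² |h_i|²`
-/

open scoped Manifold ContDiff Topology ComplexConjugate ComplexOrder InnerProductSpace
open Filter Set Metric

noncomputable section

namespace Vale.Agent.P284.H998.U

open Vale.Agent.P272.K Vale.Agent.P284.H213.KL

variable {n : ℕ} {z : Cm n}

lemma lev_sq {f : Cm n → ℝ} (hf : ContDiffAt ℝ 2 f z) (β : Cm n) :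
    lev (fun y => f y ^ 2) z β = 2 * f z * lev f z β + 2 * ‖dd f z β‖ ^ 2 := by
  have h := lev_comp (ψ := fun s => s ^ 2) (ψ₁ := fun s => 2 * s) (ψ₂ := 2) (u := f) (z := z)
    (Eventually.of_forall fun s => by simpa using hasDerivAt_pow 2 s)
    (by simpa using (hasDerivAt_id' (f z)).const_mul (2 : ℝ)) hf β
  exact h

lemma dd_sq {f : Cm n → ℝ} (hf : DifferentiableAt ℝ f z) (β : Cm n) :
    dd (fun y => f y ^ 2) z β = 2 * f z * dd f z β := by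
  have h := dd_comp (ψ := fun s => s ^ 2) (ψ' := 2 * f z) (u := f) (z := z)
    (by simpa using hasDerivAt_pow 2 (f z)) hf β
  rw [h]; push_cast; ring

lemma dd_const_mul {f : Cm n → ℝ} (hf : DifferentiableAt ℝ f z) (c : ℝ) (β : Cm n) :
    dd (fun y => c * f y) z β = c * dd f z β :=
  dd_comp (ψ := fun s => c * s) (by simpa using (hasDerivAt_id' (f z)).const_mul c) hf β

lemma mul_eq_sq (f g : Cm n → ℝ) : (fun y => f y * g y) =
    fun y => (1 / 2) * (f y + g y) ^ 2 + ((-1 / 2) * f y ^ 2 + (-1 / 2) * g y ^ 2) := by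
  funext y; ring

lemma sq_norm_add' (a b : ℂ) : ‖a + b‖ ^ 2 = ‖a‖ ^ 2 + ‖b‖ ^ 2 + 2 * (a * conj b).re := by
  rw [← Complex.normSq_eq_norm_sq, ← Complex.normSq_eq_norm_sq, ← Complex.normSq_eq_norm_sq,
    Complex.normSq_add]

lemma dd_mul {f g : Cm n → ℝ} (hf : DifferentiableAt ℝ f z) (hg : DifferentiableAt ℝ g z)
    (β : Cm n) : dd (fun y => f y * g y) z β = f z * dd g z β + g z * dd f z β := by
  have h1 : DifferentiableAt ℝ (fun y => (f y + g y) ^ 2) z := (hf.add hg).pow 2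
  have h2 : DifferentiableAt ℝ (fun y => f y ^ 2) z := hf.pow 2
  have h3 : DifferentiableAt ℝ (fun y => g y ^ 2) z := hg.pow 2
  have h4 : DifferentiableAt ℝ (fun y => (-1 / 2) * f y ^ 2 + (-1 / 2) * g y ^ 2) z :=
    (h2.const_mul _).add (h3.const_mul _)
  rw [mul_eq_sq, dd_add (h1.const_mul _) h4, dd_add (h2.const_mul _) (h3.const_mul _),
    dd_const_mul h1, dd_const_mul h2, dd_const_mul h3,
    dd_sq (f := fun y => f y + g y) (hf.add hg), dd_sq hf, dd_sq hg, dd_add hf hg]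
  push_cast; ring

lemma lev_mul {f g : Cm n → ℝ} (hf : ContDiffAt ℝ 2 f z) (hg : ContDiffAt ℝ 2 g z)
    (β : Cm n) : lev (fun y => f y * g y) z β = f z * lev g z β + g z * lev f z β +
      2 * (dd f z β * conj (dd g z β)).re := by
  have hfd := hf.differentiableAt (by norm_num)
  have hgd := hg.differentiableAt (by norm_num)
  rw [mul_eq_sq, lev_add (contDiffAt_const.mul ((hf.add hg).pow 2))
    ((contDiffAt_const.mul (hf.pow 2)).add (contDiffAt_const.mul (hg.pow 2))),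
    lev_add (contDiffAt_const.mul (hf.pow 2)) (contDiffAt_const.mul (hg.pow 2)),
    lev_const_mul ((hf.add hg).pow 2), lev_const_mul (hf.pow 2), lev_const_mul (hg.pow 2),
    lev_sq (f := fun y => f y + g y) (hf.add hg), lev_sq hf, lev_sq hg, lev_add hf hg,
    dd_add hfd hgd]
  have h := sq_norm_add' (dd f z β) (dd g z β)
  rw [h]
  ring

/-- finite sums -/
lemma lev_sum {ι : Type*} (s : Finset ι) {f : ι → Cm n → ℝ}
    (hf : ∀ i ∈ s, ContDiffAt ℝ 2 (f i) z) (β : Cm n) :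
    lev (fun y => ∑ i ∈ s, f i y) z β = ∑ i ∈ s, lev (f i) z β ∧
    ContDiffAt ℝ 2 (fun y => ∑ i ∈ s, f i y) z ∧
    dd (fun y => ∑ i ∈ s, f i y) z β = ∑ i ∈ s, dd (f i) z β := by
  classical
  induction s using Finset.induction_on with
  | empty =>
    refine ⟨?_, ?_, ?_⟩
    · simp only [Finset.sum_empty, lev, C2.cHess_const]; simp
    · simpa using contDiffAt_const
    · simp [dd, C2.dz_const]
  | insert i s hi ih =>
    obtain ⟨h1, h2, h3⟩ := ih fun j hj => hf j (Finset.mem_insert_of_mem hj)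
    have h4 := hf i (Finset.mem_insert_self i s)
    simp only [Finset.sum_insert hi]
    refine ⟨?_, h4.add h2, ?_⟩
    · rw [lev_add h4 h2, h1]
    · rw [dd_add (h4.differentiableAt (by norm_num)) (h2.differentiableAt (by norm_num)), h3]

/-- one term: `θ² |h|²` -/
lemma lev_term {θ : Cm n → ℝ} {h : Cm n → ℂ} (hθ : ContDiffAt ℝ 2 θ z)
    (hh : AnalyticAt ℂ h z) (β : Cm n) :
    lev (fun y => θ y ^ 2 * ‖h y‖ ^ 2) z β =
      ‖2 * dd θ z β * h z + θ z * fderiv ℂ h z β‖ ^ 2 +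
      ‖h z‖ ^ 2 * (4 * θ z * lev θ z β - lev (fun y => θ y ^ 2) z β) ∧
    dd (fun y => θ y ^ 2 * ‖h y‖ ^ 2) z β =
      conj (θ z * h z) * (2 * dd θ z β * h z + θ z * fderiv ℂ h z β) := by
  have h1 : ContDiffAt ℝ 2 (fun y => ‖h y‖ ^ 2) z := (contDiffAt_normSq hh).of_le (by norm_cast)
  have h2 : ContDiffAt ℝ 2 (fun y => θ y ^ 2) z := hθ.pow 2
  have h3 : dd (fun y => ‖h y‖ ^ 2) z β = conj (h z) * fderiv ℂ h z β := by
    rw [dd_normSq hh]; simp [mul_comm]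
  have hθd := hθ.differentiableAt (by norm_num : (2 : WithTop ℕ∞) ≠ 0)
  constructor
  · rw [lev_mul h2 h1, lev_normSq hh, dd_sq hθd, h3, lev_sq hθ]
    rw [sq_norm_add']
    have e1 : (‖2 * dd θ z β * h z‖ : ℝ) ^ 2 = 4 * ‖dd θ z β‖ ^ 2 * ‖h z‖ ^ 2 := by
      rw [norm_mul, norm_mul, Complex.norm_ofNat]; ring
    have e2 : (‖(θ z : ℂ) * fderiv ℂ h z β‖ : ℝ) ^ 2 = θ z ^ 2 * ‖fderiv ℂ h z β‖ ^ 2 := by
      rw [norm_mul, mul_pow, Complex.norm_real, Real.norm_eq_abs, sq_abs]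
    have e3 : (2 * dd θ z β * h z * conj ((θ z : ℂ) * fderiv ℂ h z β)).re =
        (2 * (θ z : ℂ) * dd θ z β * conj (conj (h z) * fderiv ℂ h z β)).re := by
      congr 1
      simp only [map_mul, Complex.conj_conj, Complex.conj_ofReal]
      ring
    rw [e1, e2, e3]
    ring
  · rw [dd_mul (h2.differentiableAt (by norm_num)) (h1.differentiableAt (by norm_num)), h3,
      dd_sq hθd]
    have e4 : ((‖h z‖ ^ 2 : ℝ) : ℂ) = conj (h z) * h z := by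
      rw [← Complex.normSq_eq_norm_sq, mul_comm, Complex.mul_conj]
    rw [e4]
    simp only [map_mul, Complex.conj_ofReal]
    push_cast
    ring

/-- **the main inequality** -/
theorem lev_logq {ι : Type*} [Fintype ι] {θ : ι → Cm n → ℝ} {h : ι → Cm n → ℂ}
    (hθ : ∀ i, ContDiffAt ℝ 2 (θ i) z) (hh : ∀ i, AnalyticAt ℂ (h i) z)
    (hq : 0 < ∑ i, θ i z ^ 2 * ‖h i z‖ ^ 2) (β : Cm n) :
    (∑ i, ‖h i z‖ ^ 2 * (4 * θ i z * lev (θ i) z β - lev (fun y => θ i y ^ 2) z β)) ≤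
      (∑ i, θ i z ^ 2 * ‖h i z‖ ^ 2) *
        lev (fun y => Real.log (∑ i, θ i y ^ 2 * ‖h i y‖ ^ 2)) z β := by
  set q : ℝ := ∑ i, θ i z ^ 2 * ‖h i z‖ ^ 2 with hqd
  have hc : ∀ i ∈ (Finset.univ : Finset ι),
      ContDiffAt ℝ 2 (fun y => θ i y ^ 2 * ‖h i y‖ ^ 2) z := fun i _ =>
    ((hθ i).pow 2).mul ((contDiffAt_normSq (hh i)).of_le (by norm_cast))
  obtain ⟨h1, h2, h3⟩ := lev_sum Finset.univ hc β
  rw [lev_log h2 hq, h1, h3]
  simp only [(lev_term (hθ _) (hh _) β).1, (lev_term (hθ _) (hh _) β).2]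
  rw [Finset.sum_add_distrib]
  set τ : ι → ℂ := fun i => 2 * dd (θ i) z β * h i z + θ i z * fderiv ℂ (h i) z β with hτ
  set S : ℝ := ∑ i, ‖h i z‖ ^ 2 * (4 * θ i z * lev (θ i) z β - lev (fun y => θ i y ^ 2) z β)
    with hS
  have hcs : ‖∑ i, conj ((θ i z : ℂ) * h i z) * τ i‖ ^ 2 ≤ q * ∑ i, ‖τ i‖ ^ 2 := by
    have e1 : ‖∑ i, conj ((θ i z : ℂ) * h i z) * τ i‖ ≤
        ∑ i, ‖(θ i z : ℂ) * h i z‖ * ‖τ i‖ := by
      refine (norm_sum_le _ _).trans (Finset.sum_le_sum fun i _ => ?_)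
      rw [norm_mul, RCLike.norm_conj]
    have e2 : (∑ i, ‖(θ i z : ℂ) * h i z‖ * ‖τ i‖) ^ 2 ≤
        (∑ i, ‖(θ i z : ℂ) * h i z‖ ^ 2) * ∑ i, ‖τ i‖ ^ 2 :=
      Finset.sum_mul_sq_le_sq_mul_sq _ _ _
    have e3 : ∑ i, ‖(θ i z : ℂ) * h i z‖ ^ 2 = q := by
      rw [hqd]
      refine Finset.sum_congr rfl fun i _ => ?_
      rw [norm_mul, mul_pow, Complex.norm_real, Real.norm_eq_abs, sq_abs]
    rw [e3] at e2
    exact (pow_le_pow_left₀ (norm_nonneg _) e1 2).trans e2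
  have e4 : q * (q⁻¹ * (∑ i, ‖τ i‖ ^ 2 + S) -
      (q ^ 2)⁻¹ * ‖∑ i, conj ((θ i z : ℂ) * h i z) * τ i‖ ^ 2) =
      (∑ i, ‖τ i‖ ^ 2 + S) - q⁻¹ * ‖∑ i, conj ((θ i z : ℂ) * h i z) * τ i‖ ^ 2 := by
    have hq0 : q ≠ 0 := hq.ne'
    field_simp
  have e5 : q⁻¹ * ‖∑ i, conj ((θ i z : ℂ) * h i z) * τ i‖ ^ 2 ≤ ∑ i, ‖τ i‖ ^ 2 := by
    rw [inv_mul_le_iff₀ hq]
    exact hcs
  have e6 : S ≤ q * (q⁻¹ * (∑ i, ‖τ i‖ ^ 2 + S) -
      (q ^ 2)⁻¹ * ‖∑ i, conj ((θ i z : ℂ) * h i z) * τ i‖ ^ 2) := by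
    rw [e4]; linarith
  exact e6

end Vale.Agent.P284.H998.U
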