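import Vale.Agent.P272.K.Stmt
import Mathlib.LinearAlgebra.Matrix.Determinant.Basic
import Mathlib.LinearAlgebra.Multilinear.Basic
import Mathlib.Analysis.MeanInequalities
import Mathlib.Analysis.Analytic.Constructions
import Mathlib.Analysis.Calculus.FDeriv.Analytic

/-!
# P284 (helper998), `StkUStmt`, part 2: determinants `det (A ξ)` as multilinear forms in `ξ`
-/

open scoped Topology
open Filter Set Metric

noncomputable section

namespace Vale.Agent.P284.H998.U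

open Vale.Agent.P272.K

variable {n R : ℕ}

/-- `det (A ξ)`, where `ξ` is the matrix with columns `ξ 0, …, ξ (R-1)` -/
def D (A : Matrix (Fin R) (Fin n) ℂ) (ξ : Fin R → Cm n) : ℂ :=
  (A * Matrix.of fun k j => ξ j k).det

/-- the tuple `e_{f 0}, …, e_{f (R-1)}` of basis vectors -/
def ep (f : Fin R → Fin n) : Fin R → Cm n := fun j => Pi.single (f j) 1

/-- `det (A ξ)` as an alternating form -/
def DA (A : Matrix (Fin R) (Fin n) ℂ) : (Cm n) [⋀^Fin R]→ₗ[ℂ] ℂ :=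
  Matrix.detRowAlternating.compLinearMap (Matrix.mulVecLin A)

lemma DA_apply (A : Matrix (Fin R) (Fin n) ℂ) (ξ : Fin R → Cm n) : DA A ξ = D A ξ := by
  unfold DA D
  rw [AlternatingMap.compLinearMap_apply, ← Matrix.det_transpose]
  show Matrix.det _ = _
  congr 1

lemma D_expand (A : Matrix (Fin R) (Fin n) ℂ) (ξ : Fin R → Cm n) :
    D A ξ = ∑ f : Fin R → Fin n, (∏ j, ξ j (f j)) * D A (ep f) := by
  have h1 : ξ = fun j => ∑ k, ξ j k • (Pi.single k (1 : ℂ) : Cm n) := by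
    funext j
    conv_lhs => rw [← Finset.univ_sum_single (ξ j)]
    refine Finset.sum_congr rfl fun k _ => ?_
    rw [← Pi.single_smul]; simp
  conv_lhs => rw [h1, ← DA_apply]
  show (DA A).toMultilinearMap _ = _
  rw [MultilinearMap.map_sum (DA A).toMultilinearMap
    (fun j k => ξ j k • (Pi.single k (1 : ℂ) : Cm n))]
  refine Finset.sum_congr rfl fun f _ => ?_
  rw [MultilinearMap.map_smul_univ (DA A).toMultilinearMap (fun j => ξ j (f j))
    (fun j => (Pi.single (f j) (1 : ℂ) : Cm n)), smul_eq_mul]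
  congr 1
  exact DA_apply A _

lemma D_norm_le (A : Matrix (Fin R) (Fin n) ℂ) (ξ : Fin R → Cm n) {c : ℝ}
    (hξ : ∀ j, ‖ξ j‖ ≤ c) : ‖D A ξ‖ ≤ c ^ R * ∑ f : Fin R → Fin n, ‖D A (ep f)‖ := by
  rw [D_expand A ξ, Finset.mul_sum]
  refine (norm_sum_le _ _).trans (Finset.sum_le_sum fun f _ => ?_)
  rw [norm_mul]
  refine mul_le_mul_of_nonneg_right ?_ (norm_nonneg _)
  rw [norm_prod]
  refine (Finset.prod_le_prod (fun j _ => norm_nonneg _)
    fun j _ => (norm_le_pi_norm (ξ j) (f j)).trans (hξ j)).trans ?_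
  simp

/-- the number of tuples -/
def cnt (n R : ℕ) : ℝ := Fintype.card (Fin R → Fin n)

lemma pow_sum_le {ι : Type*} [Fintype ι] (x : ι → ℝ) (hx : ∀ i, 0 ≤ x i) {k : ℕ} (hk : k ≠ 0) :
    (∑ i, x i) ^ k ≤ (Fintype.card ι : ℝ) ^ k * ∑ i, x i ^ k := by
  rcases isEmpty_or_nonempty ι with hι | hι
  · simp [hk]
  · obtain ⟨i₀, hi₀⟩ := Finite.exists_max x
    have h1 : ∑ i, x i ≤ Fintype.card ι * x i₀ := by
      refine (Finset.sum_le_sum fun i _ => hi₀ i).trans ?_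
      simp
    refine (pow_le_pow_left₀ (Finset.sum_nonneg fun i _ => hx i) h1 k).trans ?_
    rw [mul_pow]
    refine mul_le_mul_of_nonneg_left ?_ (by positivity)
    exact Finset.single_le_sum (f := fun i => x i ^ k) (fun i _ => pow_nonneg (hx i) k)
      (Finset.mem_univ i₀)

/-- **comparison** -/
lemma D_sum_le (A : Matrix (Fin R) (Fin n) ℂ) {m : ℕ} (hm : 1 ≤ m) {c : ℝ} (hc : 0 ≤ c)
    {ι : Type*} [Fintype ι] (Ξ : ι → Fin R → Cm n) (hΞ : ∀ i j, ‖Ξ i j‖ ≤ c) :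
    ∑ i, (‖D A (Ξ i)‖ ^ m) ^ 2 ≤
      (Fintype.card ι * ((c ^ R) ^ (m * 2) * cnt n R ^ (m * 2))) *
        ∑ f : Fin R → Fin n, (‖D A (ep f)‖ ^ m) ^ 2 := by
  have h1 : ∀ i, (‖D A (Ξ i)‖ ^ m) ^ 2 ≤ ((c ^ R) ^ (m * 2) * cnt n R ^ (m * 2)) *
      ∑ f : Fin R → Fin n, (‖D A (ep f)‖ ^ m) ^ 2 := by
    intro i
    rw [← pow_mul]
    refine (pow_le_pow_left₀ (norm_nonneg _) (D_norm_le A (Ξ i) (hΞ i)) (m * 2)).trans ?_
    rw [mul_pow, mul_assoc]
    refine mul_le_mul_of_nonneg_left ?_ (by positivity)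
    have := pow_sum_le (fun f : Fin R → Fin n => ‖D A (ep f)‖) (fun f => norm_nonneg _)
      (k := m * 2) (by omega)
    simpa only [cnt, ← pow_mul] using this
  refine (Finset.sum_le_sum fun i _ => h1 i).trans ?_
  rw [Finset.sum_const, nsmul_eq_mul, Finset.card_univ]
  exact le_of_eq (by ring)

lemma exists_ep {A : Matrix (Fin R) (Fin n) ℂ} {ξ : Fin R → Cm n} (h : D A ξ ≠ 0) :
    ∃ f, D A (ep f) ≠ 0 := by
  by_contra h0
  push Not at h0
  apply h
  rw [D_expand]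
  exact Finset.sum_eq_zero fun f _ => by rw [h0 f, mul_zero]

/-- analyticity -/
lemma D_an {W : Type*} [NormedAddCommGroup W] [NormedSpace ℂ W] {A : W → Matrix (Fin R) (Fin n) ℂ}
    {Ξ : W → Fin R → Cm n} {z : W} (hA : ∀ i k, AnalyticAt ℂ (fun z => A z i k) z)
    (hΞ : ∀ j k, AnalyticAt ℂ (fun z => Ξ z j k) z) : AnalyticAt ℂ (fun z => D (A z) (Ξ z)) z := by
  have h1 : (fun z => D (A z) (Ξ z)) = fun z => ∑ σ : Equiv.Perm (Fin R),
      (Equiv.Perm.sign σ : ℂ) * ∏ i, ∑ k, A z (σ i) k * Ξ z i k := by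
    funext z
    unfold D
    rw [Matrix.det_apply']
    rfl
  rw [h1]
  refine Finset.analyticAt_fun_sum _ fun σ _ => ?_
  refine analyticAt_const.mul ?_
  refine Finset.analyticAt_fun_prod _ fun i _ => ?_
  refine Finset.analyticAt_fun_sum _ fun k _ => ?_
  exact (hA _ _).mul (hΞ _ _)

end Vale.Agent.P284.H998.U
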