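import Vale.Agent.P284.H998.StkU1
import Vale.Agent.P284.H998.StkU2
import Vale.Agent.P284.H998.DecS
import Vale.Agent.P284.H573.HCalc
import Vale.Agent.P272.K.Inv.Chart
import Vale.Agent.P272.K.Asm.Weak

/-!
# P284 (helper998), `StkUStmt`, part 3: the form `ρ`
-/

open scoped Manifold ContDiff Topology ComplexConjugate ComplexOrder InnerProductSpace
open Filter Set Metric

noncomputable section

namespace Vale.Agent.P284.H998.U

open Vale.Agent.P272.K Vale.Agent.P284.H573 Vale.Agent.P284.H395 Vale.Agent.P284.H213.KL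

section hess
variable {n m : ℕ} {z : Cm n} {H : Type*} [NormedAddCommGroup H] [InnerProductSpace ℂ H]
  [CompleteSpace H]

lemma quad_lev (f : Cm n → ℝ) (z β : Cm n) : (quad (cHess f z) β).re = lev f z β := by
  unfold quad lev
  congr 1
  refine Finset.sum_congr rfl fun j _ => Finset.sum_congr rfl fun k _ => ?_
  rw [mul_assoc]

lemma logg_smooth {g : Cm n → H} (hg : AnalyticAt ℂ g z) (h0 : g z ≠ 0) :
    ContDiffAt ℝ ∞ (fun y => Real.log (‖g y‖ ^ 2)) z :=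
  (contDiffAt_normSq hg).log (by
    have := norm_pos_iff.2 h0
    positivity)

lemma psd_logg {g : Cm n → H} (hg : AnalyticAt ℂ g z) (h0 : g z ≠ 0) :
    (cHess (fun y => Real.log (‖g y‖ ^ 2)) z).PosSemidef := by
  refine posSemidef_of_quad (cHess_isHermitian ((logg_smooth hg h0).of_le (by norm_cast)))
    fun β => ?_
  have hp := norm_pos_iff.2 h0
  rw [quad_lev, lev_log ((contDiffAt_normSq hg).of_le (by norm_cast)) (by positivity),
    lev_normSq hg, dd_normSq hg]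
  have h1 : ‖⟪g z, fderiv ℂ g z β⟫_ℂ‖ ^ 2 ≤ ‖g z‖ ^ 2 * ‖fderiv ℂ g z β‖ ^ 2 := by
    rw [← mul_pow]
    exact pow_le_pow_left₀ (norm_nonneg _) (norm_inner_le_norm _ _) 2
  have h2 : ((‖g z‖ ^ 2) ^ 2)⁻¹ * ‖⟪g z, fderiv ℂ g z β⟫_ℂ‖ ^ 2 ≤
      ((‖g z‖ ^ 2) ^ 2)⁻¹ * (‖g z‖ ^ 2 * ‖fderiv ℂ g z β‖ ^ 2) :=
    mul_le_mul_of_nonneg_left h1 (by positivity)
  have h3 : ((‖g z‖ ^ 2) ^ 2)⁻¹ * (‖g z‖ ^ 2 * ‖fderiv ℂ g z β‖ ^ 2) =
      (‖g z‖ ^ 2)⁻¹ * ‖fderiv ℂ g z β‖ ^ 2 := by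
    field_simp
  linarith

/-- a holomorphic factor does not change the form -/
lemma cHess_fac {d : Cm n → ℂ} {g : Cm n → H} (hd : AnalyticAt ℂ d z) (hd0 : d z ≠ 0)
    (hg : AnalyticAt ℂ g z) (h0 : g z ≠ 0) :
    cHess (fun y => Real.log ((‖d y‖ ^ m * ‖g y‖) ^ 2)) z =
      cHess (fun y => Real.log (‖g y‖ ^ 2)) z := by
  have h1 : (fun y => Real.log ((‖d y‖ ^ m * ‖g y‖) ^ 2)) =ᶠ[𝓝 z]
      fun y => Real.log (‖d y ^ m‖ ^ 2) + Real.log (‖g y‖ ^ 2) := by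
    filter_upwards [hd.continuousAt.eventually_ne hd0, hg.continuousAt.eventually_ne h0]
      with y hy1 hy2
    have e1 : 0 < ‖d y ^ m‖ := norm_pos_iff.2 (pow_ne_zero m hy1)
    have e2 := norm_pos_iff.2 hy2
    rw [mul_pow, ← norm_pow, Real.log_mul (by positivity) (by positivity)]
  rw [cHess_congr h1, cHess_add (f := fun y => Real.log (‖d y ^ m‖ ^ 2))
    ((logg_smooth (hd.pow m) (pow_ne_zero m hd0)).of_le (by norm_cast))
    ((logg_smooth hg h0).of_le (by norm_cast)),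
    cHess_log_norm_sq (F := fun y => d y ^ m) (hd.pow m).contDiffAt (pow_ne_zero m hd0), zero_add]

end hess

section
variable {n R m s : ℕ} {X E : Type} [TopologicalSpace X] [ChartedSpace (Cm n) X]
  [TopologicalSpace E] {p : E → X} {H : Type} [NormedAddCommGroup H] [InnerProductSpace ℂ H]
  {v : E → Chart n X → (Fin R → Cm n) → H}

/-- the norm of `v` at the points of `X` -/
def Nr (p : E → X) (hp : Function.Surjective p) (v : E → Chart n X → (Fin R → Cm n) → H) (x : X)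
    (e : Chart n X) (ξ : Fin R → Cm n) : ℝ := ‖v (Function.surjInv hp x) e ξ‖

lemma Nr_eq (hv : HForm n R m p H v) (hp : Function.Surjective p) {y : E} {e : Chart n X}
    (he : At e (p y)) (ξ : Fin R → Cm n) : Nr p hp v (p y) e ξ = ‖v y e ξ‖ :=
  (hv.inv y _ e he (Function.surjInv_eq hp (p y)).symm ξ).symm

lemma at_ev {e : Chart n X} {x : X} (h : At e x) : ∀ᶠ x' in 𝓝 x, At e x' := by
  filter_upwards [e.open_source.mem_nhds h.2] with x' hx'
  exact ⟨h.1, hx'⟩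

lemma symm_ev {e : Chart n X} {x : X} (h : At e x) {P : X → Prop} (hP : ∀ᶠ x' in 𝓝 x, P x') :
    ∀ᶠ z in 𝓝 (e x), P (e.symm z) := by
  have h1 : Tendsto e.symm (𝓝 (e x)) (𝓝 x) := by
    have := (e.continuousAt_symm h.mem_target).tendsto
    rwa [h.left_inv] at this
  exact h1.eventually hP

lemma ev_down (hl : IsLocalHomeomorph p) {y : E} {P : X → Prop} (h : ∀ᶠ y' in 𝓝 y, P (p y')) :
    ∀ᶠ x in 𝓝 (p y), P x := by
  rw [← hl.map_nhds_eq y]; exact h

/-- `NZ` in a given chart -/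
lemma NZ.chart [IsManifold 𝓘(ℂ, Cm n) ω X] (hv : HForm n R m p H v) {y : E} (h : NZ p v y)
    {e : Chart n X} (he : At e (p y)) : ∃ ξ, v y e ξ ≠ 0 := by
  obtain ⟨e', he', ξ, hξ⟩ := h
  rw [hv.change y e' e he' he] at hξ
  exact ⟨_, hξ⟩

lemma NZ.of_eq (hv : HForm n R m p H v) {y y' : E} (h : NZ p v y) (hy : p y = p y') :
    NZ p v y' := by
  obtain ⟨e, he, ξ, hξ⟩ := h
  refine ⟨e, hy ▸ he, ξ, ?_⟩
  rw [← norm_pos_iff, ← hv.inv y y' e he hy ξ]
  exact norm_pos_iff.2 hξ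

/-- the bad set -/
def Zs (p : E → X) (v : E → Chart n X → (Fin R → Cm n) → H) : Set X :=
  {x | ∃ y, p y = x ∧ ¬ NZ p v y}

lemma nz_of_notMem {x : X} (hx : x ∉ Zs p v) {y : E} (hy : p y = x) : NZ p v y := by
  by_contra h
  exact hx ⟨y, hy, h⟩

lemma notMem_of_nz (hv : HForm n R m p H v) {y : E} (h : NZ p v y) : p y ∉ Zs p v := by
  rintro ⟨y', hy', h'⟩
  exact h' (NZ.of_eq hv h hy'.symm)

/-- the local representative -/
lemma Nr_hol (hv : HForm n R m p H v) (hp : Function.Surjective p) (hl : IsLocalHomeomorph p)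
    {y : E} {e : Chart n X} (he : At e (p y)) : ∃ F : Cm n × (Fin R → Cm n) → H,
    (∀ ξ, AnalyticAt ℂ F (e (p y), ξ)) ∧
    ∀ᶠ x in 𝓝 (p y), ∀ ξ, Nr p hp v x e ξ = ‖F (e x, ξ)‖ := by
  obtain ⟨F, hF, hv'⟩ := hv.hol y e he
  refine ⟨F, hF, ev_down hl (P := fun x => ∀ ξ, Nr p hp v x e ξ = ‖F (e x, ξ)‖) ?_⟩
  filter_upwards [hv', hl.continuous.continuousAt.eventually (at_ev he)] with y' h1 h2 ξ
  rw [Nr_eq hv hp h2, h1 ξ]

lemma Nr_cont (hv : HForm n R m p H v) (hp : Function.Surjective p) (hl : IsLocalHomeomorph p)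
    {x : X} {e : Chart n X} (he : At e x) (ξ : Fin R → Cm n) :
    ContinuousAt (fun x => Nr p hp v x e ξ) x := by
  obtain ⟨y, rfl⟩ := hp x
  obtain ⟨F, hF, hN⟩ := Nr_hol hv hp hl he
  have h1 : ContinuousAt (fun x => ‖F (e x, ξ)‖) (p y) := by
    refine ContinuousAt.norm ?_
    exact ContinuousAt.comp (f := fun x => (e x, ξ)) (x := p y) (hF ξ).continuousAt
      ((e.continuousAt he.2).prodMk continuousAt_const)
  refine h1.congr ?_
  filter_upwards [hN] with x hx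
  exact (hx ξ).symm

/-- the bad set is closed -/
lemma Zs_closed [IsManifold 𝓘(ℂ, Cm n) ω X] (hv : HForm n R m p H v)
    (hp : Function.Surjective p) (hl : IsLocalHomeomorph p) : IsClosed (Zs p v) := by
  rw [← isOpen_compl_iff, isOpen_iff_mem_nhds]
  intro x hx
  obtain ⟨y, rfl⟩ := hp x
  have he : At (chartAt (Cm n) (p y)) (p y) := ⟨chart_mem_atlas _ _, mem_chart_source _ _⟩
  obtain ⟨ξ, hξ⟩ := NZ.chart hv (nz_of_notMem hx rfl) he
  have h1 : Nr p hp v (p y) (chartAt (Cm n) (p y)) ξ ≠ 0 := by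
    rw [Nr_eq hv hp he]; exact norm_ne_zero_iff.2 hξ
  filter_upwards [(Nr_cont hv hp hl he ξ).eventually_ne h1, at_ev he] with x' h2 h3
  obtain ⟨y', rfl⟩ := hp x'
  rw [Nr_eq hv hp h3] at h2
  exact notMem_of_nz hv ⟨_, h3, ξ, norm_ne_zero_iff.1 h2⟩

/-- the matrices of the transition maps -/
def Tm (e₂ e : Chart n X) (z : Cm n) : Cm n →L[ℂ] Cm n := fderiv ℂ (fun z => e (e₂.symm z)) z

lemma Tm_an [IsManifold 𝓘(ℂ, Cm n) ω X] {e₂ e : Chart n X} {x : X} (h₂ : At e₂ x) (h : At e x) :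
    AnalyticAt ℂ (Tm e₂ e) (e₂ x) := (transition h₂ h).analyticAt.fderiv

/-- the norm of `v` in any chart, near a good point -/
lemma Nr_dec [IsManifold 𝓘(ℂ, Cm n) ω X] (hv : HForm n R m p H v) (hp : Function.Surjective p)
    (hl : IsLocalHomeomorph p) {y : E} {e e₂ : Chart n X} (he : At e (p y)) (he₂ : At e₂ (p y))
    {A : Cm n → Matrix (Fin R) (Fin n) ℂ} {g : Cm n → H}
    (hA : ∀ᶠ y' in 𝓝 y, ∀ ξ : Fin R → Cm n, v y' e ξ = D (A (e (p y'))) ξ ^ m • g (e (p y'))) :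
    ∀ᶠ x in 𝓝 (p y), At e x ∧ At e₂ x ∧ ∀ ξ : Fin R → Cm n,
      Nr p hp v x e₂ ξ = ‖D (A (e x)) (fun i => Tm e₂ e (e₂ x) (ξ i))‖ ^ m * ‖g (e x)‖ := by
  refine ev_down hl (P := fun x => At e x ∧ At e₂ x ∧ ∀ ξ : Fin R → Cm n,
      Nr p hp v x e₂ ξ = ‖D (A (e x)) (fun i => Tm e₂ e (e₂ x) (ξ i))‖ ^ m * ‖g (e x)‖) ?_
  filter_upwards [hA, hl.continuous.continuousAt.eventually (at_ev he),
    hl.continuous.continuousAt.eventually (at_ev he₂)] with y' h1 h2 h3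
  refine ⟨h2, h3, fun ξ => ?_⟩
  rw [Nr_eq hv hp h3, hv.change y' e₂ e h3 h2, h1, norm_smul, norm_pow]
  rfl

open Classical in
/-- the form `ρ` -/
def rho (p : E → X) (hp : Function.Surjective p) (v : E → Chart n X → (Fin R → Cm n) → H)
    (e : Chart n X) (z : Cm n) : Matrix (Fin n) (Fin n) ℂ :=
  if h : ∃ ξ, Nr p hp v (e.symm z) e ξ ≠ 0 then
    cHess (fun z' => Real.log (Nr p hp v (e.symm z') e h.choose ^ 2)) z
  else 0

variable [CompleteSpace H] [IsManifold 𝓘(ℂ, Cm n) ω X]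

/-- `log |v (ξ)|²` and `log |g|²` -/
lemma hess_eq (hv : HForm n R m p H v) (hp : Function.Surjective p)
    (hl : IsLocalHomeomorph p) (hm : 1 ≤ m) {y : E} {e e₂ : Chart n X} (he : At e (p y))
    (he₂ : At e₂ (p y))
    {A : Cm n → Matrix (Fin R) (Fin n) ℂ} {g : Cm n → H}
    (hAan : ∀ i k, AnalyticAt ℂ (fun z => A z i k) (e (p y))) (hg : AnalyticAt ℂ g (e (p y)))
    (hA : ∀ᶠ y' in 𝓝 y, ∀ ξ : Fin R → Cm n, v y' e ξ = D (A (e (p y'))) ξ ^ m • g (e (p y'))) :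
    ∀ᶠ z in 𝓝 (e₂ (p y)), ∀ ξ, Nr p hp v (e₂.symm z) e₂ ξ ≠ 0 →
      cHess (fun z' => Real.log (Nr p hp v (e₂.symm z') e₂ ξ ^ 2)) z =
        cHess (fun z' => Real.log (‖g (e (e₂.symm z'))‖ ^ 2)) z := by
  have h1 := symm_ev he₂ (Nr_dec hv hp hl he he₂ hA)
  have hφ : AnalyticAt ℂ (fun z => e (e₂.symm z)) (e₂ (p y)) := (transition he₂ he).analyticAt
  have hφ0 : (fun z => e (e₂.symm z)) (e₂ (p y)) = e (p y) := by
    show e (e₂.symm (e₂ (p y))) = _
    rw [he₂.left_inv]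
  have h2 : ∀ᶠ z in 𝓝 (e₂ (p y)), ∀ i k, AnalyticAt ℂ (fun z => A z i k) (e (e₂.symm z)) := by
    have := (eventually_all.2 fun i => eventually_all.2 fun k => (hAan i k).eventually_analyticAt)
    rw [← hφ0] at this
    exact hφ.continuousAt.eventually this
  have h3 : ∀ᶠ z in 𝓝 (e₂ (p y)), AnalyticAt ℂ g (e (e₂.symm z)) := by
    have := hg.eventually_analyticAt
    rw [← hφ0] at this
    exact hφ.continuousAt.eventually this
  filter_upwards [eventually_eventually_nhds.2 h1, eventually_eventually_nhds.2 he₂.nhds_target,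
    h2, h3, hφ.eventually_analyticAt] with z k1 k2 k3 k4 k5 ξ hξ
  have k6 : (fun z' => Real.log (Nr p hp v (e₂.symm z') e₂ ξ ^ 2)) =ᶠ[𝓝 z]
      fun z' => Real.log ((‖D (A (e (e₂.symm z'))) (fun i => Tm e₂ e z' (ξ i))‖ ^ m *
        ‖g (e (e₂.symm z'))‖) ^ 2) := by
    filter_upwards [k1, k2] with z' hz' ht
    rw [hz'.2.2 ξ, e₂.right_inv ht]
  have k7 := k1.self_of_nhds.2.2 ξ
  rw [e₂.right_inv k2.self_of_nhds] at k7
  rw [k7] at hξ
  have k8 : D (A (e (e₂.symm z))) (fun i => Tm e₂ e z (ξ i)) ≠ 0 := by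
    intro h
    rw [h, norm_zero, zero_pow (by omega), zero_mul] at hξ
    exact hξ rfl
  have k9 : g (e (e₂.symm z)) ≠ 0 := by
    intro h
    rw [h, norm_zero, mul_zero] at hξ
    exact hξ rfl
  rw [cHess_congr k6]
  refine cHess_fac ?_ k8 ?_ k9
  · refine D_an (fun i k => ?_) fun j k => ?_
    · exact AnalyticAt.fun_comp (g := fun z => A z i k) (f := fun z => e (e₂.symm z)) (k3 i k) k5
    · have t1 : AnalyticAt ℂ (fun z => Tm e₂ e z (ξ j)) z :=
        (ContinuousLinearMap.apply ℂ (Cm n) (ξ j)).analyticAt _ |>.fun_comp k5.fderiv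
      exact (ContinuousLinearMap.proj (R := ℂ) (φ := fun _ : Fin n => ℂ) k).analyticAt _
        |>.fun_comp t1
  · exact AnalyticAt.fun_comp (g := g) (f := fun z => e (e₂.symm z)) k4 k5

/-- `ρ` and `log |g|²` -/
lemma rho_ev (hv : HForm n R m p H v) (hp : Function.Surjective p)
    (hl : IsLocalHomeomorph p) (hm : 1 ≤ m) {y : E} {e e₂ : Chart n X} (he : At e (p y))
    (he₂ : At e₂ (p y)) (hy : NZ p v y)
    {A : Cm n → Matrix (Fin R) (Fin n) ℂ} {g : Cm n → H}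
    (hAan : ∀ i k, AnalyticAt ℂ (fun z => A z i k) (e (p y))) (hg : AnalyticAt ℂ g (e (p y)))
    (hA : ∀ᶠ y' in 𝓝 y, ∀ ξ : Fin R → Cm n, v y' e ξ = D (A (e (p y'))) ξ ^ m • g (e (p y'))) :
    ∀ᶠ z in 𝓝 (e₂ (p y)), rho p hp v e₂ z =
        cHess (fun z' => Real.log (‖g (e (e₂.symm z'))‖ ^ 2)) z := by
  obtain ⟨ξ, hξ⟩ := NZ.chart hv hy he₂
  have h1 : Nr p hp v (p y) e₂ ξ ≠ 0 := by
    rw [Nr_eq hv hp he₂]; exact norm_ne_zero_iff.2 hξ
  filter_upwards [hess_eq hv hp hl hm he he₂ hAan hg hA,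
    symm_ev he₂ ((Nr_cont hv hp hl he₂ ξ).eventually_ne h1)] with z h2 h3
  have h4 : ∃ ξ, Nr p hp v (e₂.symm z) e₂ ξ ≠ 0 := ⟨ξ, h3⟩
  unfold rho
  rw [dif_pos h4]
  exact h2 _ h4.choose_spec

/-- the last clause of `StkUStmt` -/
lemma rho_eq (hv : HForm n R m p H v) (hp : Function.Surjective p)
    (hl : IsLocalHomeomorph p) (hm : 1 ≤ m)
    (hD : ∀ y e, At e (p y) → NZ p v y → DecAt p R m s v y e) (y : E) (e : Chart n X)
    (he : At e (p y)) (V : Cm n × (Fin R → Cm n) → H)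
    (hV : ∀ᶠ y' in 𝓝 y, ∀ ξ, v y' e ξ = V (e (p y'), ξ)) (ξ : Fin R → Cm n)
    (hξ : v y e ξ ≠ 0) :
    rho p hp v e (e (p y)) = cHess (fun z => Real.log (‖V (z, ξ)‖ ^ 2)) (e (p y)) := by
  have hy : NZ p v y := ⟨e, he, ξ, hξ⟩
  obtain ⟨A, g, hAan, hg, -, -, hA, -⟩ := hD y e he hy
  have h1 := (rho_ev hv hp hl hm he he hy hAan hg hA).self_of_nhds
  have h2 := (hess_eq hv hp hl hm he he hAan hg hA).self_of_nhds ξ (by
    rw [he.left_inv, Nr_eq hv hp he]; exact norm_ne_zero_iff.2 hξ)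
  rw [h1, ← h2]
  refine cHess_congr ?_
  have h3 : ∀ᶠ x in 𝓝 (p y), At e x ∧ Nr p hp v x e ξ = ‖V (e x, ξ)‖ := by
    refine ev_down hl (P := fun x => At e x ∧ Nr p hp v x e ξ = ‖V (e x, ξ)‖) ?_
    filter_upwards [hV, hl.continuous.continuousAt.eventually (at_ev he)] with y' h4 h5
    exact ⟨h5, by rw [Nr_eq hv hp h5, h4 ξ]⟩
  filter_upwards [symm_ev he h3, he.nhds_target] with z h4 h5
  rw [h4.2, e.right_inv h5]

/-- **`ρ` is a closed semipositive form of rank at most `s`** -/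
theorem isRho (hv : HForm n R m p H v) (hp : Function.Surjective p)
    (hl : IsLocalHomeomorph p) (hm : 1 ≤ m)
    (hD : ∀ y e, At e (p y) → NZ p v y → DecAt p R m s v y e) :
    IsRho (Zs p v) s (rho p hp v) := by
  have key : ∀ (e : Chart n X) x, At e x → x ∉ Zs p v → ∃ g : Cm n → H,
      AnalyticAt ℂ g (e x) ∧ g (e x) ≠ 0 ∧
      (rho p hp v e =ᶠ[𝓝 (e x)] fun z => cHess (fun z' => Real.log (‖g z'‖ ^ 2)) z) ∧
      (cHess (fun z => Real.log (‖g z‖ ^ 2)) (e x)).rank ≤ s := by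
    intro e x he hx
    obtain ⟨y, rfl⟩ := hp x
    obtain ⟨A, g, hAan, hg, hg0, -, hA, hr⟩ := hD y e he (nz_of_notMem hx rfl)
    refine ⟨g, hg, hg0, ?_, hr⟩
    filter_upwards [rho_ev hv hp hl hm he he (nz_of_notMem hx rfl) hAan hg hA,
      eventually_eventually_nhds.2 he.nhds_target] with z h1 h2
    rw [h1]
    refine cHess_congr ?_
    filter_upwards [h2] with z' h3
    rw [e.right_inv h3]
  refine ⟨?_, ?_, ?_, ?_, ?_⟩
  · intro e x he hx i j
    obtain ⟨g, hg, hg0, h1, -⟩ := key e x he hx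
    refine (C2.contDiffAt_cHess (m := ∞) (logg_smooth hg hg0) (by rfl) i j).congr_of_eventuallyEq ?_
    filter_upwards [h1] with z hz
    rw [hz]
  · intro e e' x he he' hx
    obtain ⟨y, rfl⟩ := hp x
    obtain ⟨A, g, hAan, hg, hg0, -, hA, -⟩ := hD y e' he' (nz_of_notMem hx rfl)
    have hy := nz_of_notMem hx rfl
    have h1 := (rho_ev hv hp hl hm he' he hy hAan hg hA).self_of_nhds
    have h2 := (rho_ev hv hp hl hm he' he' hy hAan hg hA).self_of_nhds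
    have h3 : cHess (fun z' => Real.log (‖g (e' (e'.symm z'))‖ ^ 2)) (e' (p y)) =
        cHess (fun z' => Real.log (‖g z'‖ ^ 2)) (e' (p y)) := by
      refine cHess_congr ?_
      filter_upwards [he'.nhds_target] with z' h3
      rw [e'.right_inv h3]
    rw [h1, h2, h3]
    have h4 : e' (e.symm (e (p y))) = e' (p y) := by rw [he.left_inv]
    have h5 := cHess_comp (τ := fun z => e' (e.symm z)) (f := fun z' => Real.log (‖g z'‖ ^ 2))
      (z := e (p y)) (by rw [h4]; exact (logg_smooth hg hg0).of_le (by norm_cast))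
      (transition he he')
    rw [h4] at h5
    exact h5
  · intro e x he hx i j k
    obtain ⟨g, hg, hg0, h1, -⟩ := key e x he hx
    have h2 : ∀ i j k, dz k (fun z => rho p hp v e z i j) (e x) =
        dz k (fun z => cHess (fun z' => Real.log (‖g z'‖ ^ 2)) z i j) (e x) := fun i j k => by
      refine dz_congr ?_
      filter_upwards [h1] with z hz
      rw [hz]
    rw [h2, h2]
    exact Vale.Agent.P272.K.cHess_closed (logg_smooth hg hg0) i j k
  · intro e x he hx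
    obtain ⟨g, hg, hg0, h1, -⟩ := key e x he hx
    rw [h1.self_of_nhds]
    exact psd_logg hg hg0
  · intro e x he hx
    obtain ⟨g, hg, hg0, h1, h2⟩ := key e x he hx
    rw [h1.self_of_nhds]
    exact h2

end

end Vale.Agent.P284.H998.U
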