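import Vale.Agent.P284.H998.StkU3
import Vale.Agent.P272.K.INT.Part
import Vale.Agent.P272.K.AMP.Main.Step0

/-!
# P284 (helper998), `StkUStmt`, part 4: the potential `u = log Σ θ_a² Σ_f |v (e_a, ε_f)|²`
-/

open scoped Manifold ContDiff Topology ComplexConjugate ComplexOrder InnerProductSpace
open Filter Set Metric

noncomputable section

namespace Vale.Agent.P284.H998.U

open Vale.Agent.P272.K Vale.Agent.P284.H573 Vale.Agent.P284.H395 Vale.Agent.P284.H213.KL

section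
variable {n R m s : ℕ} {X E : Type} [TopologicalSpace X] [ChartedSpace (Cm n) X]
  [TopologicalSpace E] {p : E → X} {H : Type} [NormedAddCommGroup H] [InnerProductSpace ℂ H]
  {v : E → Chart n X → (Fin R → Cm n) → H}

/-- the sum of the squares of the norms of the coefficients in the chart `e` -/
def na (p : E → X) (hp : Function.Surjective p) (v : E → Chart n X → (Fin R → Cm n) → H)
    (e : Chart n X) (x : X) : ℝ := ∑ f : Fin R → Fin n, Nr p hp v x e (ep f) ^ 2

/-- the sum over the charts -/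
def Nn (p : E → X) (hp : Function.Surjective p) (v : E → Chart n X → (Fin R → Cm n) → H)
    (P : INT.Part n X) (x : X) : ℝ := ∑ a, P.ρ a x ^ 2 * na p hp v (P.e a) x

lemma na_nonneg (hp : Function.Surjective p) (e : Chart n X) (x : X) : 0 ≤ na p hp v e x :=
  Finset.sum_nonneg fun _ _ => sq_nonneg _

lemma Nn_nonneg (hp : Function.Surjective p) (P : INT.Part n X) (x : X) : 0 ≤ Nn p hp v P x :=
  Finset.sum_nonneg fun a _ => mul_nonneg (sq_nonneg _) (na_nonneg hp _ _)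

lemma term_le (hp : Function.Surjective p) (P : INT.Part n X) (a : Fin P.N) (x : X) :
    P.ρ a x ^ 2 * na p hp v (P.e a) x ≤ Nn p hp v P x :=
  Finset.single_le_sum (f := fun a => P.ρ a x ^ 2 * na p hp v (P.e a) x)
    (fun a _ => mul_nonneg (sq_nonneg _) (na_nonneg hp _ _)) (Finset.mem_univ a)

lemma exists_rho_pos (P : INT.Part n X) (x : X) : ∃ a, 0 < P.ρ a x := by
  by_contra h
  push Not at h
  have h1 : ∑ a, P.ρ a x = 0 :=
    Finset.sum_eq_zero fun a _ => le_antisymm (h a) (P.nonneg a x)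
  rw [P.sum x] at h1
  exact one_ne_zero h1

lemma at_of_tsupport (P : INT.Part n X) {a : Fin P.N} {x : X} (h : x ∈ tsupport (P.ρ a)) :
    At (P.e a) x := ⟨P.mem a, P.supp a h⟩

lemma at_of_pos (P : INT.Part n X) {a : Fin P.N} {x : X} (h : P.ρ a x ≠ 0) :
    At (P.e a) x := at_of_tsupport P (subset_tsupport _ h)

lemma ep_norm (f : Fin R → Fin n) (j : Fin R) : ‖ep f j‖ ≤ 1 := by
  rw [pi_norm_le_iff_of_nonneg zero_le_one]
  intro k
  unfold ep
  by_cases h : k = f j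
  · subst h; simp
  · simp [h]

/-- the comparison constant -/
def KK (n R m : ℕ) (c : ℝ) : ℝ :=
  (Fintype.card (Fin R → Fin n) : ℝ) * ((c ^ R) ^ (m * 2) * cnt n R ^ (m * 2))

lemma KK_nonneg {c : ℝ} (hc : 0 ≤ c) : 0 ≤ KK n R m c := by
  unfold KK cnt; positivity

variable [IsManifold 𝓘(ℂ, Cm n) ω X]

/-- comparison of two charts -/
lemma na_le (hv : HForm n R m p H v) (hp : Function.Surjective p) (hl : IsLocalHomeomorph p)
    (hm : 1 ≤ m) (hD : ∀ y e, At e (p y) → NZ p v y → DecAt p R m s v y e) {x : X}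
    (hx : x ∉ Zs p v) {e e₂ : Chart n X} (he : At e x) (he₂ : At e₂ x) {c : ℝ} (hc : 0 ≤ c)
    (hT : ‖Tm e₂ e (e₂ x)‖ ≤ c) : na p hp v e₂ x ≤ KK n R m c * na p hp v e x := by
  obtain ⟨y, rfl⟩ := hp x
  obtain ⟨A, g, -, -, -, -, hA, -⟩ := hD y e he (nz_of_notMem hx rfl)
  have h1 : ∀ ξ : Fin R → Cm n, Nr p hp v (p y) e₂ ξ =
      ‖D (A (e (p y))) (fun i => Tm e₂ e (e₂ (p y)) (ξ i))‖ ^ m * ‖g (e (p y))‖ :=
    (Nr_dec hv hp hl he he₂ hA).self_of_nhds.2.2
  have h2 : ∀ ξ : Fin R → Cm n, Nr p hp v (p y) e ξ = ‖D (A (e (p y))) ξ‖ ^ m * ‖g (e (p y))‖ := by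
    intro ξ
    rw [Nr_eq hv hp he, hA.self_of_nhds ξ, norm_smul, norm_pow]
    rfl
  unfold na
  simp only [h1, h2, mul_pow]
  rw [← Finset.sum_mul, ← Finset.sum_mul, ← mul_assoc]
  refine mul_le_mul_of_nonneg_right ?_ (by positivity)
  have := D_sum_le (A (e (p y))) hm hc (fun f : Fin R → Fin n => fun i => Tm e₂ e (e₂ (p y)) (ep f i))
    (fun f i => by
      refine ((Tm e₂ e (e₂ (p y))).le_opNorm _).trans ?_
      calc ‖Tm e₂ e (e₂ (p y))‖ * ‖ep f i‖ ≤ c * 1 :=
            mul_le_mul hT (ep_norm f i) (norm_nonneg _) hc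
        _ = c := mul_one c)
  simpa only [KK, ← mul_pow] using this

lemma na_pos (hv : HForm n R m p H v) (hp : Function.Surjective p)
    (hm : 1 ≤ m) (hD : ∀ y e, At e (p y) → NZ p v y → DecAt p R m s v y e) {x : X}
    (hx : x ∉ Zs p v) {e : Chart n X} (he : At e x) : 0 < na p hp v e x := by
  obtain ⟨y, rfl⟩ := hp x
  obtain ⟨A, g, -, -, hg0, ⟨ξ, hξ⟩, hA, -⟩ := hD y e he (nz_of_notMem hx rfl)
  obtain ⟨f, hf⟩ := exists_ep (A := A (e (p y))) (ξ := ξ) hξ
  have h2 : Nr p hp v (p y) e (ep f) = ‖D (A (e (p y))) (ep f)‖ ^ m * ‖g (e (p y))‖ := by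
    rw [Nr_eq hv hp he, hA.self_of_nhds (ep f), norm_smul, norm_pow]
    rfl
  have h3 : 0 < Nr p hp v (p y) e (ep f) := by
    rw [h2]
    have := norm_pos_iff.2 hf
    have := norm_pos_iff.2 hg0
    positivity
  refine lt_of_lt_of_le (pow_pos h3 2) ?_
  exact Finset.single_le_sum (f := fun f => Nr p hp v (p y) e (ep f) ^ 2)
    (fun f _ => sq_nonneg _) (Finset.mem_univ f)

lemma Nn_pos (hv : HForm n R m p H v) (hp : Function.Surjective p)
    (hm : 1 ≤ m) (hD : ∀ y e, At e (p y) → NZ p v y → DecAt p R m s v y e) (P : INT.Part n X)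
    {x : X} (hx : x ∉ Zs p v) : 0 < Nn p hp v P x := by
  obtain ⟨a, ha⟩ := exists_rho_pos P x
  exact lt_of_lt_of_le (mul_pos (pow_pos ha 2) (na_pos hv hp hm hD hx (at_of_pos P ha.ne')))
    (term_le hp P a x)

/-- local comparison -/
lemma na_local (hv : HForm n R m p H v) (hp : Function.Surjective p) (hl : IsLocalHomeomorph p)
    (hm : 1 ≤ m) (hD : ∀ y e, At e (p y) → NZ p v y → DecAt p R m s v y e) (P : INT.Part n X)
    (x₀ : X) : ∃ K : ℝ, 0 < K ∧ ∀ᶠ x in 𝓝 x₀, x ∉ Zs p v → ∀ a, x ∈ tsupport (P.ρ a) →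
      na p hp v (P.e a) x ≤ K * Nn p hp v P x := by
  obtain ⟨b, hb⟩ := exists_rho_pos P x₀
  have hbA := at_of_pos P hb.ne'
  have h1 : ∀ a, ∃ K : ℝ, 0 < K ∧ ∀ᶠ x in 𝓝 x₀, x ∉ Zs p v → x ∈ tsupport (P.ρ a) →
      na p hp v (P.e a) x ≤ K * Nn p hp v P x := by
    intro a
    by_cases ha : x₀ ∈ tsupport (P.ρ a)
    · have haA := at_of_tsupport P ha
      set c : ℝ := ‖Tm (P.e a) (P.e b) (P.e a x₀)‖ + 1 with hc
      have hc0 : 0 ≤ c := by positivity
      have k1 : ∀ᶠ x in 𝓝 x₀, ‖Tm (P.e a) (P.e b) (P.e a x)‖ ≤ c := by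
        have : ContinuousAt (fun x => ‖Tm (P.e a) (P.e b) (P.e a x)‖) x₀ :=
          ContinuousAt.norm (ContinuousAt.comp (f := P.e a) (x := x₀) (Tm_an haA hbA).continuousAt
            ((P.e a).continuousAt haA.2))
        exact (this.eventually (gt_mem_nhds (lt_add_one _))).mono fun x hx => le_of_lt hx
      have k2 : ∀ᶠ x in 𝓝 x₀, P.ρ b x₀ / 2 < P.ρ b x :=
        (P.cont b).continuousAt.eventually (lt_mem_nhds (half_lt_self hb))
      refine ⟨KK n R m c / (P.ρ b x₀ / 2) ^ 2 + 1, ?_, ?_⟩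
      · have := KK_nonneg (n := n) (R := R) (m := m) hc0
        positivity
      · filter_upwards [k1, k2, at_ev haA, at_ev hbA] with x k1 k2 k3 k4 hx _
        have k5 := na_le hv hp hl hm hD hx k4 k3 hc0 k1
        have k6 := term_le (v := v) hp P b x
        have k7 : (P.ρ b x₀ / 2) ^ 2 * na p hp v (P.e b) x ≤ Nn p hp v P x := by
          refine le_trans (mul_le_mul_of_nonneg_right ?_ (na_nonneg hp _ _)) k6
          exact pow_le_pow_left₀ (by positivity) k2.le 2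
        have k8 := KK_nonneg (n := n) (R := R) (m := m) hc0
        have k9 : 0 < (P.ρ b x₀ / 2) ^ 2 := by positivity
        have k10 : na p hp v (P.e b) x ≤ Nn p hp v P x / (P.ρ b x₀ / 2) ^ 2 := by
          rw [le_div_iff₀ k9, mul_comm]; exact k7
        calc na p hp v (P.e a) x ≤ KK n R m c * na p hp v (P.e b) x := k5
          _ ≤ KK n R m c * (Nn p hp v P x / (P.ρ b x₀ / 2) ^ 2) :=
            mul_le_mul_of_nonneg_left k10 k8
          _ = KK n R m c / (P.ρ b x₀ / 2) ^ 2 * Nn p hp v P x := by ring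
          _ ≤ _ := by
            rw [add_mul, one_mul]
            linarith [Nn_nonneg (v := v) hp P x]
    · refine ⟨1, one_pos, ?_⟩
      filter_upwards [(isClosed_tsupport (P.ρ a)).isOpen_compl.mem_nhds ha] with x hx _ hx'
      exact (hx hx').elim
  choose K hK hK' using h1
  refine ⟨(∑ a, K a) + 1, ?_, ?_⟩
  · have : 0 ≤ ∑ a, K a := Finset.sum_nonneg fun a _ => (hK a).le
    positivity
  · filter_upwards [eventually_all.2 hK'] with x hx hxZ a hxa
    refine (hx a hxZ hxa).trans (mul_le_mul_of_nonneg_right ?_ (Nn_nonneg hp P x))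
    have : K a ≤ ∑ a, K a := Finset.single_le_sum (fun a _ => (hK a).le) (Finset.mem_univ a)
    linarith

/-- global comparison -/
lemma na_global [CompactSpace X] (hv : HForm n R m p H v) (hp : Function.Surjective p)
    (hl : IsLocalHomeomorph p)
    (hm : 1 ≤ m) (hD : ∀ y e, At e (p y) → NZ p v y → DecAt p R m s v y e) (P : INT.Part n X) :
    ∃ K : ℝ, 0 < K ∧ ∀ x, x ∉ Zs p v → ∀ a, x ∈ tsupport (P.ρ a) →
      na p hp v (P.e a) x ≤ K * Nn p hp v P x := by
  have key : ∃ K : ℝ, 0 < K ∧ ∀ x ∈ (univ : Set X), x ∉ Zs p v → ∀ a, x ∈ tsupport (P.ρ a) →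
      na p hp v (P.e a) x ≤ K * Nn p hp v P x := by
    refine isCompact_univ.induction_on (p := fun S => ∃ K : ℝ, 0 < K ∧ ∀ x ∈ S, x ∉ Zs p v →
      ∀ a, x ∈ tsupport (P.ρ a) → na p hp v (P.e a) x ≤ K * Nn p hp v P x) ?_ ?_ ?_ ?_
    · exact ⟨1, one_pos, fun x hx => hx.elim⟩
    · rintro S T hST ⟨K, hK, h⟩
      exact ⟨K, hK, fun x hx => h x (hST hx)⟩
    · rintro S T ⟨K, hK, h⟩ ⟨K', hK', h'⟩
      refine ⟨K + K', by positivity, ?_⟩
      rintro x (hx | hx) hxZ a hxa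
      · refine (h x hx hxZ a hxa).trans (mul_le_mul_of_nonneg_right ?_ (Nn_nonneg hp P x))
        linarith
      · refine (h' x hx hxZ a hxa).trans (mul_le_mul_of_nonneg_right ?_ (Nn_nonneg hp P x))
        linarith
    · intro x _
      obtain ⟨K, hK, h⟩ := na_local hv hp hl hm hD P x
      exact ⟨_, mem_nhdsWithin_of_mem_nhds h, K, hK, fun x hx => hx⟩
  obtain ⟨K, hK, h⟩ := key
  exact ⟨K, hK, fun x => h x (mem_univ x)⟩

/-- the form `i∂∂̄θ² - 4θ i∂∂̄θ` -/
def bf (θ : X → ℝ) (e : Chart n X) (z : Cm n) : Matrix (Fin n) (Fin n) ℂ :=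
  cHess (fun y => θ (e.symm y) ^ 2) z - (4 * θ (e.symm z) : ℂ) • cHess (fun y => θ (e.symm y)) z

lemma bf_bound [CompactSpace X] {w : Chart n X → Cm n → Matrix (Fin n) (Fin n) ℂ}
    (hw : IsHermitian w) {θ : X → ℝ} (hθ : SmoothFn (n := n) θ) :
    ∃ C : ℝ, 0 < C ∧ ∀ e x, At e x → ((C : ℂ) • w e (e x) - bf θ e (e x)).PosSemidef := by
  have hle : (2 : WithTop ℕ∞) ≤ ∞ := by norm_cast
  have h1 : ∀ (e : Chart n X) x, At e x → ContDiffAt ℝ ∞ (fun z => θ (e.symm z) ^ 2) (e x) :=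
    fun e x h => (hθ e x h).pow 2
  refine AMP.Main.exists_comparison' hw ?_ ?_ ?_
  · intro e x h i j
    have t1 := C2.contDiffAt_cHess (m := ∞) (h1 e x h) (by rfl) i j
    have t2 := C2.contDiffAt_cHess (m := ∞) (hθ e x h) (by rfl) i j
    have t3 : ContDiffAt ℝ ∞ (fun z => (4 * θ (e.symm z) : ℂ)) (e x) :=
      contDiffAt_const.mul (C2.contDiffAt_ofReal (hθ e x h))
    exact t1.sub (t3.mul t2)
  · intro e e' x h h'
    have f1 := isForm_cHess (u := fun x => θ x ^ 2) (fun e x h => (h1 e x h).of_le hle) e e' x h h'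
    have f2 := isForm_cHess (u := θ) (fun e x h => (hθ e x h).of_le hle) e e' x h h'
    show bf θ e (e x) = _ * bf θ e' (e' x) * _
    unfold bf
    simp only at f1 f2
    rw [f1, f2, h.left_inv, h'.left_inv, Matrix.mul_sub, Matrix.sub_mul, Matrix.mul_smul,
      Matrix.smul_mul]
  · intro e x h
    unfold bf
    refine (cHess_isHermitian ((h1 e x h).of_le hle)).sub ?_
    have := AMP.Main.isHermitian_smul_ofReal (cHess_isHermitian ((hθ e x h).of_le hle))
      (4 * θ (e.symm (e x)))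
    push_cast at this
    exact this

end

end Vale.Agent.P284.H998.U
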