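import Vale.Agent.P284.H998.StkU4

/-!
# P284 (helper998), `StkUStmt`, part 5: the potential, and `StkUStmt` from `DecStmt`
-/

open scoped Manifold ContDiff Topology ComplexConjugate ComplexOrder InnerProductSpace
open Filter Set Metric

noncomputable section

namespace Vale.Agent.P284.H998.U

open Vale.Agent.P272.K Vale.Agent.P284.H573 Vale.Agent.P284.H395 Vale.Agent.P284.H213.KL

lemma quad_add' {n : ℕ} (M N : Matrix (Fin n) (Fin n) ℂ) (ξ : Cm n) :
    quad (M + N) ξ = quad M ξ + quad N ξ := by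
  unfold quad
  rw [← Finset.sum_add_distrib]
  refine Finset.sum_congr rfl fun i _ => ?_
  rw [← Finset.sum_add_distrib]
  refine Finset.sum_congr rfl fun j _ => ?_
  rw [Matrix.add_apply]; ring

lemma quad_smul' {n : ℕ} (c : ℝ) (M : Matrix (Fin n) (Fin n) ℂ) (ξ : Cm n) :
    (quad ((c : ℂ) • M) ξ).re = c * (quad M ξ).re := by
  rw [← Complex.re_ofReal_mul]
  unfold quad
  congr 1
  rw [Finset.mul_sum]
  refine Finset.sum_congr rfl fun i _ => ?_
  rw [Finset.mul_sum]
  refine Finset.sum_congr rfl fun j _ => ?_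
  rw [Matrix.smul_apply, smul_eq_mul]; ring

lemma quad_sub' {n : ℕ} (M N : Matrix (Fin n) (Fin n) ℂ) (ξ : Cm n) :
    quad (M - N) ξ = quad M ξ - quad N ξ := by
  unfold quad
  rw [← Finset.sum_sub_distrib]
  refine Finset.sum_congr rfl fun i _ => ?_
  rw [← Finset.sum_sub_distrib]
  refine Finset.sum_congr rfl fun j _ => ?_
  rw [Matrix.sub_apply]; ring

section
variable {n R m s : ℕ} {X E : Type} [TopologicalSpace X] [ChartedSpace (Cm n) X]
  [TopologicalSpace E] {p : E → X} {H : Type} [NormedAddCommGroup H] [InnerProductSpace ℂ H]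
  {v : E → Chart n X → (Fin R → Cm n) → H}

lemma na_cont (hv : HForm n R m p H v) (hp : Function.Surjective p) (hl : IsLocalHomeomorph p)
    {e : Chart n X} {x : X} (he : At e x) : ContinuousAt (na p hp v e) x := by
  unfold na
  exact tendsto_finsetSum _ fun f _ => (Nr_cont hv hp hl he (ep f)).pow 2

lemma Nn_cont (hv : HForm n R m p H v) (hp : Function.Surjective p) (hl : IsLocalHomeomorph p)
    (P : INT.Part n X) : Continuous (Nn p hp v P) := by
  rw [continuous_iff_continuousAt]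
  intro x
  unfold Nn
  refine tendsto_finsetSum _ fun a _ => ?_
  by_cases ha : x ∈ tsupport (P.ρ a)
  · exact ((P.cont a).continuousAt.pow 2).mul (na_cont hv hp hl (at_of_tsupport P ha))
  · have h1 : (fun x => P.ρ a x ^ 2 * na p hp v (P.e a) x) =ᶠ[𝓝 x] fun _ => 0 := by
      filter_upwards [(isClosed_tsupport (P.ρ a)).isOpen_compl.mem_nhds ha] with y hy
      rw [image_eq_zero_of_notMem_tsupport hy]; ring
    exact (continuousAt_const (y := (0 : ℝ))).congr h1.symm

lemma Nn_zero (hv : HForm n R m p H v) (hp : Function.Surjective p) (P : INT.Part n X) {x : X}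
    (hx : x ∈ Zs p v) : Nn p hp v P x = 0 := by
  obtain ⟨y, rfl, hy⟩ := hx
  unfold Nn
  refine Finset.sum_eq_zero fun a _ => ?_
  by_cases ha : P.ρ a (p y) = 0
  · rw [ha]; ring
  · have h1 := at_of_pos P ha
    have h2 : na p hp v (P.e a) (p y) = 0 := by
      unfold na
      refine Finset.sum_eq_zero fun f _ => ?_
      rw [Nr_eq hv hp h1]
      have h3 : v y (P.e a) (ep f) = 0 := by
        by_contra h
        exact hy ⟨_, h1, _, h⟩
      rw [h3, norm_zero]; ring
    rw [h2, mul_zero]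

open Classical in
/-- the holomorphic factors at the point `x` -/
def hh (P : INT.Part n X) (x : X) (e : Chart n X) (A : Cm n → Matrix (Fin R) (Fin n) ℂ)
    (m : ℕ) (i : Fin P.N × (Fin R → Fin n)) (z : Cm n) : ℂ :=
  if x ∈ tsupport (P.ρ i.1) then
    D (A z) (fun j => Tm (P.e i.1) e (P.e i.1 (e.symm z)) (ep i.2 j)) ^ m
  else 0

/-- the cut-off functions in the chart `e` -/
def th (P : INT.Part n X) (e : Chart n X) (i : Fin P.N × (Fin R → Fin n)) (z : Cm n) : ℝ :=
  P.ρ i.1 (e.symm z)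

variable [IsManifold 𝓘(ℂ, Cm n) ω X]

lemma hh_an (P : INT.Part n X) {x : X} {e : Chart n X} (he : At e x)
    {A : Cm n → Matrix (Fin R) (Fin n) ℂ} (hA : ∀ i k, AnalyticAt ℂ (fun z => A z i k) (e x))
    (i : Fin P.N × (Fin R → Fin n)) : AnalyticAt ℂ (hh P x e A m i) (e x) := by
  unfold hh
  by_cases hx : x ∈ tsupport (P.ρ i.1)
  · simp only [hx, if_true]
    have ha := at_of_tsupport P hx
    refine AnalyticAt.pow (D_an hA fun j k => ?_) m
    have h1 : AnalyticAt ℂ (fun z => P.e i.1 (e.symm z)) (e x) := (transition he ha).analyticAt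
    have h2 : AnalyticAt ℂ (Tm (P.e i.1) e) ((fun z => P.e i.1 (e.symm z)) (e x)) := by
      show AnalyticAt ℂ (Tm (P.e i.1) e) (P.e i.1 (e.symm (e x)))
      rw [he.left_inv]
      exact Tm_an ha he
    have h3 : AnalyticAt ℂ (fun z => Tm (P.e i.1) e (P.e i.1 (e.symm z))) (e x) :=
      AnalyticAt.fun_comp (g := Tm (P.e i.1) e) (f := fun z => P.e i.1 (e.symm z)) h2 h1
    have h4 : AnalyticAt ℂ (fun z => Tm (P.e i.1) e (P.e i.1 (e.symm z)) (ep i.2 j)) (e x) :=
      (ContinuousLinearMap.apply ℂ (Cm n) (ep i.2 j)).analyticAt _ |>.fun_comp h3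
    exact (ContinuousLinearMap.proj (R := ℂ) (φ := fun _ : Fin n => ℂ) k).analyticAt _
      |>.fun_comp h4
  · simp only [hx, if_false]
    exact analyticAt_const

/-- the local expression of the sum `N` -/
lemma Nn_local (hv : HForm n R m p H v) (hp : Function.Surjective p) (hl : IsLocalHomeomorph p)
    (P : INT.Part n X) {y : E} {e : Chart n X} (he : At e (p y))
    {A : Cm n → Matrix (Fin R) (Fin n) ℂ} {g : Cm n → H}
    (hA : ∀ᶠ y' in 𝓝 y, ∀ ξ : Fin R → Cm n, v y' e ξ = D (A (e (p y'))) ξ ^ m • g (e (p y'))) :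
    ∀ᶠ z in 𝓝 (e (p y)),
      (∀ a, p y ∈ tsupport (P.ρ a) → na p hp v (P.e a) (e.symm z) =
        ‖g z‖ ^ 2 * ∑ f : Fin R → Fin n, ‖hh P (p y) e A m (a, f) z‖ ^ 2) ∧
      Nn p hp v P (e.symm z) = ‖g z‖ ^ 2 *
        ∑ i : Fin P.N × (Fin R → Fin n), th P e i z ^ 2 * ‖hh P (p y) e A m i z‖ ^ 2 := by
  have h1 : ∀ᶠ z in 𝓝 (e (p y)), ∀ a, p y ∈ tsupport (P.ρ a) →
      na p hp v (P.e a) (e.symm z) =
        ‖g z‖ ^ 2 * ∑ f : Fin R → Fin n, ‖hh P (p y) e A m (a, f) z‖ ^ 2 := by
    refine eventually_all.2 fun a => ?_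
    by_cases ha : p y ∈ tsupport (P.ρ a)
    · filter_upwards [symm_ev he (Nr_dec hv hp hl he (at_of_tsupport P ha) hA), he.nhds_target]
        with z h1 h2 _
      unfold na
      rw [Finset.mul_sum]
      refine Finset.sum_congr rfl fun f _ => ?_
      rw [h1.2.2, e.right_inv h2]
      simp only [hh, ha, if_true]
      rw [norm_pow]; ring
    · exact Eventually.of_forall fun z h => (ha h).elim
  have h2 : ∀ᶠ z in 𝓝 (e (p y)), ∀ a, p y ∉ tsupport (P.ρ a) → P.ρ a (e.symm z) = 0 := by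
    refine eventually_all.2 fun a => ?_
    by_cases ha : p y ∈ tsupport (P.ρ a)
    · exact Eventually.of_forall fun z h => (h ha).elim
    · refine (symm_ev he (P := fun x => P.ρ a x = 0) ?_).mono fun z hz _ => hz
      filter_upwards [(isClosed_tsupport (P.ρ a)).isOpen_compl.mem_nhds ha] with x hx
      exact image_eq_zero_of_notMem_tsupport hx
  filter_upwards [h1, h2] with z h1 h2
  refine ⟨h1, ?_⟩
  unfold Nn
  rw [Finset.mul_sum, Fintype.sum_prod_type]
  refine Finset.sum_congr rfl fun a _ => ?_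
  by_cases ha : p y ∈ tsupport (P.ρ a)
  · rw [h1 a ha, Finset.mul_sum, Finset.mul_sum]
    refine Finset.sum_congr rfl fun f _ => ?_
    simp only [th]
    ring
  · rw [h2 a ha]
    rw [Finset.sum_eq_zero fun f _ => ?_]
    · ring
    · simp only [th]
      rw [h2 a ha]; ring

variable [CompleteSpace H]

/-- **the potential** -/
theorem isPot [CompactSpace X] {w : Chart n X → Cm n → Matrix (Fin n) (Fin n) ℂ}
    (hw : IsHermitian w) (hv : HForm n R m p H v) (hp : Function.Surjective p)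
    (hl : IsLocalHomeomorph p)
    (hm : 1 ≤ m) (hD : ∀ y e, At e (p y) → NZ p v y → DecAt p R m s v y e) (P : INT.Part n X) :
    ∃ C : ℝ, IsPot (Zs p v) w (rho p hp v) C (fun x => Real.log (Nn p hp v P x)) := by
  obtain ⟨K, hK, hKb⟩ := na_global hv hp hl hm hD P
  have hb : ∀ a, ∃ C : ℝ, 0 < C ∧ ∀ e x, At e x →
      ((C : ℂ) • w e (e x) - bf (P.ρ a) e (e x)).PosSemidef := fun a => bf_bound hw (P.smooth a)
  choose C₀ hC₀ hCb using hb
  set C₁ : ℝ := ∑ a, C₀ a with hC₁
  have hC₁0 : 0 ≤ C₁ := Finset.sum_nonneg fun a _ => (hC₀ a).le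
  -- the local data at a good point
  have key : ∀ (e : Chart n X) x, At e x → x ∉ Zs p v →
      ∃ (A : Cm n → Matrix (Fin R) (Fin n) ℂ) (g : Cm n → H),
      (∀ i k, AnalyticAt ℂ (fun z => A z i k) (e x)) ∧ AnalyticAt ℂ g (e x) ∧ g (e x) ≠ 0 ∧
      0 < ∑ i : Fin P.N × (Fin R → Fin n), th P e i (e x) ^ 2 * ‖hh P x e A m i (e x)‖ ^ 2 ∧
      ((fun z => Real.log (Nn p hp v P (e.symm z))) =ᶠ[𝓝 (e x)] fun z =>
        Real.log (‖g z‖ ^ 2) + Real.log (∑ i : Fin P.N × (Fin R → Fin n),
          th P e i z ^ 2 * ‖hh P x e A m i z‖ ^ 2)) ∧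
      rho p hp v e (e x) = cHess (fun z => Real.log (‖g z‖ ^ 2)) (e x) ∧
      (∀ a, ∑ f : Fin R → Fin n, ‖hh P x e A m (a, f) (e x)‖ ^ 2 ≤
        K * ∑ i : Fin P.N × (Fin R → Fin n), th P e i (e x) ^ 2 * ‖hh P x e A m i (e x)‖ ^ 2) ∧
      (∀ i : Fin P.N × (Fin R → Fin n), ContDiffAt ℝ ∞ (th P e i) (e x)) := by
    intro e x he hx
    obtain ⟨y, rfl⟩ := hp x
    obtain ⟨A, g, hAan, hg, hg0, -, hA, -⟩ := hD y e he (nz_of_notMem hx rfl)
    have h1 := Nn_local hv hp hl P he hA
    have h2 : 0 < ‖g (e (p y))‖ ^ 2 := by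
      have := norm_pos_iff.2 hg0
      positivity
    have hq : 0 < ∑ i : Fin P.N × (Fin R → Fin n),
        th P e i (e (p y)) ^ 2 * ‖hh P (p y) e A m i (e (p y))‖ ^ 2 := by
      have h3 := Nn_pos hv hp hm hD P hx
      have h4 := h1.self_of_nhds.2
      rw [he.left_inv] at h4
      rw [h4] at h3
      exact (mul_pos_iff_of_pos_left h2).1 h3
    have hθ : ∀ i : Fin P.N × (Fin R → Fin n), ContDiffAt ℝ ∞ (th P e i) (e (p y)) := fun i =>
      P.smooth i.1 e (p y) he
    have hqc : ContinuousAt (fun z => ∑ i : Fin P.N × (Fin R → Fin n),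
        th P e i z ^ 2 * ‖hh P (p y) e A m i z‖ ^ 2) (e (p y)) :=
      tendsto_finsetSum _ fun i _ => ((hθ i).continuousAt.pow 2).mul
        ((hh_an P he hAan i).continuousAt.norm.pow 2)
    refine ⟨A, g, hAan, hg, hg0, hq, ?_, ?_, ?_, hθ⟩
    · filter_upwards [h1, hg.continuousAt.eventually_ne hg0,
        hqc.eventually (lt_mem_nhds hq)] with z h3 h4 h5
      have h6 := norm_pos_iff.2 h4
      rw [h3.2, Real.log_mul (by positivity) h5.ne']
    · have h3 := (rho_ev hv hp hl hm he he (nz_of_notMem hx rfl) hAan hg hA).self_of_nhds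
      rw [h3]
      refine cHess_congr ?_
      filter_upwards [he.nhds_target] with z' h3
      rw [e.right_inv h3]
    · intro a
      by_cases ha : p y ∈ tsupport (P.ρ a)
      · have h3 := hKb (p y) hx a ha
        have h4 := h1.self_of_nhds.1 a ha
        have h5 := h1.self_of_nhds.2
        rw [he.left_inv] at h4 h5
        rw [h4, h5] at h3
        have h6 : ‖g (e (p y))‖ ^ 2 * ∑ f : Fin R → Fin n,
            ‖hh P (p y) e A m (a, f) (e (p y))‖ ^ 2 ≤ ‖g (e (p y))‖ ^ 2 *
            (K * ∑ i : Fin P.N × (Fin R → Fin n),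
              th P e i (e (p y)) ^ 2 * ‖hh P (p y) e A m i (e (p y))‖ ^ 2) := by
          calc _ ≤ _ := h3
            _ = _ := by ring
        exact le_of_mul_le_mul_left h6 h2
      · rw [Finset.sum_eq_zero fun f _ => ?_]
        · positivity
        · simp only [hh, ha, if_false, norm_zero]; ring
  refine ⟨C₁ * (P.N * K), ?_, ?_, ?_⟩
  · intro e x he hx
    obtain ⟨A, g, hAan, hg, hg0, hq, h1, -, -, hθ⟩ := key e x he hx
    refine ContDiffAt.congr_of_eventuallyEq ?_ h1
    refine (logg_smooth hg hg0).add (ContDiffAt.log ?_ hq.ne')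
    exact ContDiffAt.sum fun i _ => ((hθ i).pow 2).mul (contDiffAt_normSq (hh_an P he hAan i))
  · intro x hx
    have h1 : Tendsto (Nn p hp v P) (𝓝[(Zs p v)ᶜ] x) (𝓝[>] 0) := by
      refine tendsto_nhdsWithin_iff.2 ⟨?_, ?_⟩
      · have := ((Nn_cont hv hp hl P).continuousAt (x := x)).tendsto
        rw [Nn_zero hv hp P hx] at this
        exact this.mono_left nhdsWithin_le_nhds
      · filter_upwards [self_mem_nhdsWithin] with x' hx'
        exact Nn_pos hv hp hm hD P hx'
    exact Real.tendsto_log_nhdsGT_zero.comp h1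
  · intro e x he hx
    obtain ⟨A, g, hAan, hg, hg0, hq, h1, h2, h3, hθ⟩ := key e x he hx
    have hle : (2 : WithTop ℕ∞) ≤ ∞ := by norm_cast
    set Q : Cm n → ℝ := fun z => ∑ i : Fin P.N × (Fin R → Fin n),
        th P e i z ^ 2 * ‖hh P x e A m i z‖ ^ 2 with hQ
    have hQs : ContDiffAt ℝ ∞ Q (e x) :=
      ContDiffAt.sum fun i _ => ((hθ i).pow 2).mul (contDiffAt_normSq (hh_an P he hAan i))
    have hlQ : ContDiffAt ℝ 2 (fun z => Real.log (Q z)) (e x) := (hQs.log hq.ne').of_le hle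
    have h4 : cHess (fun z => Real.log (Nn p hp v P (e.symm z))) (e x) +
        ((C₁ * (P.N * K) : ℝ) : ℂ) • w e (e x) - rho p hp v e (e x) =
        cHess (fun z => Real.log (Q z)) (e x) + ((C₁ * (P.N * K) : ℝ) : ℂ) • w e (e x) := by
      rw [cHess_congr h1, h2, cHess_add ((logg_smooth hg hg0).of_le hle) hlQ]
      abel
    rw [h4]
    have hwp := hw.posDef e x he
    refine posSemidef_of_quad ?_ fun β => ?_
    · exact (cHess_isHermitian hlQ).add (AMP.Main.isHermitian_smul_ofReal hwp.isHermitian _)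
    · rw [quad_add', Complex.add_re, quad_smul', quad_lev]
      have hW : 0 ≤ (quad (w e (e x)) β).re := quad_nonneg hwp.posSemidef β
      set W : ℝ := (quad (w e (e x)) β).re with hWd
      have h5 := lev_logq (fun i => (hθ i).of_le hle) (fun i => hh_an P he hAan i) hq β
      have h6 : ∀ i : Fin P.N × (Fin R → Fin n), -(C₁ * W) ≤
          4 * th P e i (e x) * lev (th P e i) (e x) β -
            lev (fun y => th P e i y ^ 2) (e x) β := by
        intro i
        have t1 := quad_nonneg (hCb i.1 e x he) β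
        have t2 : bf (P.ρ i.1) e (e x) = cHess (fun y => th P e i y ^ 2) (e x) -
            ((4 * th P e i (e x) : ℝ) : ℂ) • cHess (th P e i) (e x) := by
          unfold bf th
          push_cast
          rfl
        rw [quad_sub', Complex.sub_re, quad_smul', t2, quad_sub', Complex.sub_re, quad_smul',
          quad_lev, quad_lev] at t1
        have t3 : C₀ i.1 * W ≤ C₁ * W := mul_le_mul_of_nonneg_right
          (Finset.single_le_sum (fun a _ => (hC₀ a).le) (Finset.mem_univ i.1)) hW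
        linarith
      have h7 : ∑ i : Fin P.N × (Fin R → Fin n), ‖hh P x e A m i (e x)‖ ^ 2 ≤
          P.N * K * Q (e x) := by
        rw [Fintype.sum_prod_type]
        refine (Finset.sum_le_sum fun a _ => h3 a).trans ?_
        rw [Finset.sum_const, nsmul_eq_mul, Finset.card_univ, Fintype.card_fin, mul_assoc]
      have h8 : -(C₁ * W) * (P.N * K * Q (e x)) ≤
          Q (e x) * lev (fun z => Real.log (Q z)) (e x) β := by
        refine le_trans ?_ h5
        calc -(C₁ * W) * (P.N * K * Q (e x))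
            ≤ -(C₁ * W) * ∑ i : Fin P.N × (Fin R → Fin n), ‖hh P x e A m i (e x)‖ ^ 2 := by
              have : 0 ≤ C₁ * W := mul_nonneg hC₁0 hW
              nlinarith
          _ = ∑ i : Fin P.N × (Fin R → Fin n), ‖hh P x e A m i (e x)‖ ^ 2 * -(C₁ * W) := by
              rw [Finset.mul_sum]
              exact Finset.sum_congr rfl fun i _ => mul_comm _ _
          _ ≤ _ := Finset.sum_le_sum fun i _ => mul_le_mul_of_nonneg_left (h6 i) (sq_nonneg _)
      have h9 : Q (e x) * (-(C₁ * W) * (P.N * K)) ≤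
          Q (e x) * lev (fun z => Real.log (Q z)) (e x) β := by
        calc _ = -(C₁ * W) * (P.N * K * Q (e x)) := by ring
          _ ≤ _ := h8
      have h10 := le_of_mul_le_mul_left h9 hq
      linarith

end

/-- **StkU from DecStmt** -/
theorem stkU_of (hDec : DecStmt) : StkUStmt := by
  intro n X _ _ _ _ _ w hw E _ _ p hpc hp H _ _ _ R m s hR hm v hv y₀ hNF
  have hD := hDec n X E p hpc hp H R m s hR hm v hv y₀ hNF
  have hl : IsLocalHomeomorph p := hpc.isLocalHomeomorph
  obtain ⟨P⟩ := INT.exists_part n X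
  obtain ⟨C, hC⟩ := isPot hw.toIsHermitian hv hp hl hm hD P
  refine ⟨Zs_closed hv hp hl, rho p hp v, C, _, isRho hv hp hl hm hD, hC, ?_⟩
  intro y e he V _ hV ξ hξ
  exact rho_eq hv hp hl hm hD y e he V hV ξ hξ

end Vale.Agent.P284.H998.U
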