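import Vale.Agent.P284.H998.ZS
import Vale.Agent.P284.H730.S5G3

/-!
# P284 (helper998), module Z: the zero set of a section is a complex manifold
-/

open scoped Manifold ContDiff Topology ComplexOrder
open Filter Set

noncomputable section

namespace Vale.Agent.P284.H998

open Vale.Agent.P272.K Vale.Agent.P299.H908 Vale.Agent.P284.H730.G

section
variable {n : ℕ} {X : Type} [TopologicalSpace X] [ChartedSpace (Cm n) X]
  {ι : Type} [Fintype ι] (D : PJ n X ι) (a : ι → ℂ)

/-- the value of the linear form `a` -/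
def PJ.sec (x : X) : ℂ := ∑ i, a i * D.Z x i

/-- the section `a` in the trivialisation given by `Z i` -/
def PJ.sig (i : ι) (x : X) : ℂ := ∑ j, a j * (D.Z x j / D.Z x i)

lemma PJ.sig_eq (i : ι) (x : X) : D.sig a i x = D.sec a x / D.Z x i := by
  unfold PJ.sig PJ.sec
  rw [Finset.sum_div]
  exact Finset.sum_congr rfl fun j _ => by ring

lemma PJ.exists_ne (x : X) : ∃ i, D.Z x i ≠ 0 := by
  by_contra h
  push Not at h
  exact D.ne x (funext h)

lemma PJ.sig_zero_iff {i : ι} {x : X} (hi : D.Z x i ≠ 0) : D.sig a i x = 0 ↔ D.sec a x = 0 := by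
  rw [D.sig_eq, div_eq_zero_iff]
  simp [hi]

lemma PJ.sig_hol {i : ι} {x : X} (hi : D.Z x i ≠ 0) : HolAt n (D.sig a i) x := by
  refine HolAt.sum fun j _ => ?_
  exact (HolAt.const (n := n) (a j) x).mul (D.hol x i hi j)

lemma PJ.sig_trans {i i' : ι} {x : X} (hi : D.Z x i ≠ 0) :
    D.sig a i' x = D.sig a i x * (D.Z x i / D.Z x i') := by
  rw [D.sig_eq, D.sig_eq, div_mul_div_cancel₀ hi]

/-- the section `a` vanishes to order one at `x` if it vanishes at `x` -/
def PJ.RegAt (x : X) : Prop :=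
  ∀ (e : Chart n X) (i : ι), At e x → D.Z x i ≠ 0 →
    fderiv ℂ (fun z => D.sig a i (e.symm z)) (e x) ≠ 0

lemma PJ.isClosed_zero [IsManifold 𝓘(ℂ, Cm n) ω X] : IsClosed {x | D.sec a x = 0} := by
  rw [← isOpen_compl_iff, isOpen_iff_mem_nhds]
  intro x hx
  obtain ⟨i, hi⟩ := D.exists_ne x
  have h1 : D.sig a i x ≠ 0 := fun h => hx ((D.sig_zero_iff a hi).1 h)
  have h2 : ContinuousAt (D.sig a i) x := (D.sig_hol a hi).continuousAt
  filter_upwards [h2.eventually_ne h1, (D.opn i).mem_nhds hi] with y hy hy2 h3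
  exact hy ((D.sig_zero_iff a hy2).2 h3)

lemma regAt_of [IsManifold 𝓘(ℂ, Cm n) ω X] {x : X} (h0 : D.sec a x = 0) {e : Chart n X} {i : ι}
    (he : At e x) (hi : D.Z x i ≠ 0)
    (h : fderiv ℂ (fun z => D.sig a i (e.symm z)) (e x) ≠ 0) : D.RegAt a x := by
  intro e' i' he' hi' h1
  apply h
  -- the change of charts
  have hT : DifferentiableAt ℂ (fun z => e' (e.symm z)) (e x) := transition_differentiableAt he he'
  have hTx : (fun z => e' (e.symm z)) (e x) = e' x := by simp only [he.left_inv]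
  have h2 : DifferentiableAt ℂ (fun z => D.sig a i' (e'.symm z)) (e' x) :=
    (D.sig_hol a hi' e' he').differentiableAt
  have h3 : (fun z => D.sig a i' (e.symm z)) =ᶠ[𝓝 (e x)]
      fun z => D.sig a i' (e'.symm (e' (e.symm z))) := by
    filter_upwards [he.nhds_at he'] with z hz
    rw [hz.2.2.left_inv]
  have h8 : HasFDerivAt (fun z => D.sig a i' (e'.symm z)) (0 : Cm n →L[ℂ] ℂ)
      ((fun z => e' (e.symm z)) (e x)) := by
    rw [hTx, ← h1]
    exact h2.hasFDerivAt
  have h9 := (HasFDerivAt.comp (e x) h8 hT.hasFDerivAt).congr_of_eventuallyEq h3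
  have h4 : fderiv ℂ (fun z => D.sig a i' (e.symm z)) (e x) = 0 := by
    rw [h9.fderiv, ContinuousLinearMap.zero_comp]
  -- the change of trivialisations
  have h5 : (fun z => D.sig a i (e.symm z)) =ᶠ[𝓝 (e x)]
      fun z => D.sig a i' (e.symm z) * (D.Z (e.symm z) i' / D.Z (e.symm z) i) := by
    have hc : Tendsto e.symm (𝓝 (e x)) (𝓝 x) := by
      have := (e.continuousAt_symm he.mem_target).tendsto
      rwa [he.left_inv] at this
    filter_upwards [hc.eventually ((D.opn i').mem_nhds hi')] with z hz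
    exact D.sig_trans a hz
  have h6 : DifferentiableAt ℂ (fun z => D.sig a i' (e.symm z)) (e x) :=
    (D.sig_hol a hi' e he).differentiableAt
  have h7 : DifferentiableAt ℂ (fun z => D.Z (e.symm z) i' / D.Z (e.symm z) i) (e x) :=
    (D.hol x i hi i' e he).differentiableAt
  have h10 : D.sig a i' (e.symm (e x)) = 0 := by
    rw [he.left_inv]
    exact (D.sig_zero_iff a hi').2 h0
  rw [h5.fderiv_eq, fderiv_fun_mul h6 h7, h4, h10]
  ext v
  simp

end

section
variable {n : ℕ} {X : Type} [TopologicalSpace X] [ChartedSpace (Cm (n + 1)) X]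
  [IsManifold 𝓘(ℂ, Cm (n + 1)) ω X] {ι : Type} [Fintype ι] (D : PJ (n + 1) X ι) (a : ι → ℂ)

/-- a relatively open subset `V` of the zero set of `a`, all of whose points are regular, is a
complex manifold -/
theorem immY_zero {V : Set X} (hreg : ∀ x ∈ V, D.RegAt a x)
    (hO : ∃ O : Set X, IsOpen O ∧ V = {x | D.sec a x = 0} ∩ O) :
    ImmY (n + 1) n (Subtype.val : V → X) := by
  refine ⟨continuous_subtype_val, fun y => ?_⟩
  obtain ⟨O, hO, hVO⟩ := hO
  obtain ⟨i, hi⟩ := D.exists_ne (y : X)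
  set e := chartAt (Cm (n + 1)) (y : X) with he
  have hAt : At e (y : X) := ⟨chart_mem_atlas _ _, mem_chart_source _ _⟩
  have hy0 : D.sec a y = 0 := (hVO.le y.2).1
  have hr := hreg y y.2 e i hAt hi
  set f : Cm (n + 1) → Cm 1 := fun z _ => D.sig a i (e.symm z) with hf
  have hfa : AnalyticAt ℂ (fun z => D.sig a i (e.symm z)) (e y) := D.sig_hol a hi e hAt
  have hfd : ∀ᶠ z in 𝓝 (e y), DifferentiableAt ℂ f z := by
    filter_upwards [hfa.eventually_analyticAt] with z hz
    exact differentiableAt_pi.2 fun _ => hz.differentiableAt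
  have hfs : Function.Surjective (fderiv ℂ f (e y)) := by
    obtain ⟨v, hv⟩ : ∃ v, fderiv ℂ (fun z => D.sig a i (e.symm z)) (e y) v ≠ 0 := by
      by_contra hcon
      push Not at hcon
      exact hr (ContinuousLinearMap.ext hcon)
    intro c
    refine ⟨(c 0 / fderiv ℂ (fun z => D.sig a i (e.symm z)) (e y) v) • v, ?_⟩
    funext p
    have h1 : fderiv ℂ f (e y) = ContinuousLinearMap.pi
        fun _ => fderiv ℂ (fun z => D.sig a i (e.symm z)) (e y) :=
      fderiv_pi fun _ => hfa.differentiableAt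
    rw [h1, ContinuousLinearMap.pi_apply, map_smul, smul_eq_mul, div_mul_cancel₀ _ hv]
    exact congrArg c (Subsingleton.elim _ _)
  obtain ⟨L, Θ, hz, hΘ, hΘs⟩ := exists_theta (m := n) (N := 1) rfl hfd hfs
  have hAO : IsOpen ({x | D.Z x i ≠ 0} ∩ O) := (D.opn i).inter hO
  have hyO : (y : X) ∈ O := (hVO.le y.2).2
  set ψ := e.restrOpen ({x | D.Z x i ≠ 0} ∩ O) hAO with hψ
  set Ψ := ψ ≫ₕ Θ with hΨ
  have hψs : ∀ x, x ∈ ψ.source ↔ x ∈ e.source ∧ D.Z x i ≠ 0 ∧ x ∈ O := by
    intro x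
    rw [hψ, OpenPartialHomeomorph.restrOpen_source]
    rfl
  have hΨs : ∀ x, x ∈ Ψ.source ↔ x ∈ ψ.source ∧ e x ∈ Θ.source := by
    intro x
    rw [hΨ, OpenPartialHomeomorph.trans_source]
    rfl
  have hΨa : ∀ x, Ψ x = (f (e x), L (e x)) := by
    intro x
    change Θ (e x) = _
    rw [hΘ]
  have hVs : ∀ x ∈ Ψ.source, x ∈ V ↔ (Ψ x).1 = 0 := by
    intro x hx
    have h1 := (hψs x).1 ((hΨs x).1 hx).1
    rw [hΨa]
    change _ ↔ f (e x) = 0
    have h4 : ∀ p, f (e x) p = D.sig a i x := fun _ => congrArg (D.sig a i) (e.left_inv h1.1)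
    have h2 : f (e x) = 0 ↔ D.sec a x = 0 := by
      rw [← D.sig_zero_iff a h1.2.1]
      constructor
      · intro h3
        rw [← h4 0, h3]
        rfl
      · intro h3
        funext p
        rw [h4 p, h3]
        rfl
    rw [h2]
    constructor
    · intro hxV
      exact (hVO.le hxV).1
    · intro h3
      rw [hVO]
      exact ⟨h3, h1.2.2⟩
  set c := slice Ψ V 0 y hVs with hc
  have hyΨ : (y : X) ∈ Ψ.source := (hΨs _).2 ⟨(hψs _).2 ⟨hAt.2, hi, hyO⟩, hz⟩
  refine ⟨c, hyΨ, ?_⟩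
  have hkey : ∀ z ∈ c.target, (0, z) ∈ Ψ.target ∧ (c.symm z : X) = Ψ.symm (0, z) := by
    intro z hz
    exact ⟨hz, slice_symm Ψ V 0 y hVs hz⟩
  have hkey2 : ∀ z, ((0 : Cm 1), z) ∈ Ψ.target → ((0 : Cm 1), z) ∈ Θ.target ∧
      Θ.symm (0, z) ∈ e.target ∧ Ψ.symm (0, z) = e.symm (Θ.symm (0, z)) := by
    intro z hz
    have h1 : ((0 : Cm 1), z) ∈ Θ.target ∧ Θ.symm (0, z) ∈ ψ.target := by
      rw [hΨ, OpenPartialHomeomorph.trans_target] at hz
      exact hz
    exact ⟨h1.1, h1.2.1, rfl⟩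
  refine imm_of_local continuous_subtype_val hAt.1 (fun z => Θ.symm (0, z)) L ?_ ?_ ?_ ?_
  · intro z hz
    obtain ⟨h1, h2⟩ := hkey z hz
    change (c.symm z : X) = _
    rw [h2]
    exact (hkey2 z h1).2.2
  · intro z hz
    exact (hkey2 z (hkey z hz).1).2.1
  · intro z hz
    have h1 := hΘs _ (hkey2 z (hkey z hz).1).1
    exact DifferentiableAt.comp (g := Θ.symm) z h1 (by fun_prop)
  · intro z hz
    have h1 := Θ.right_inv (hkey2 z (hkey z hz).1).1
    rw [hΘ] at h1
    exact congrArg Prod.snd h1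

end

end Vale.Agent.P284.H998
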