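import Vale.Agent.P284.H998.Z3a

/-!
# P284 (helper998), module Z: components of the zero set, restriction of homogeneous coordinates
-/

open scoped Manifold ContDiff Topology ComplexOrder
open Filter Set

noncomputable section

namespace Vale.Agent.P284.H998

open Vale.Agent.P272.K Vale.Agent.P299.H908 Vale.Agent.P284.H730.G

section
variable {n : ℕ} {X : Type} [TopologicalSpace X] [ChartedSpace (Cm (n + 1)) X]
  [IsManifold 𝓘(ℂ, Cm (n + 1)) ω X] {ι : Type} [Fintype ι] (D : PJ (n + 1) X ι) (a : ι → ℂ)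

/-- a connected component of a regular zero set -/
theorem exists_component (hreg : ∀ x, D.sec a x = 0 → D.RegAt a x) {x : X}
    (hx : D.sec a x = 0) :
    ∃ V : Set X, x ∈ V ∧ IsClosed V ∧ IsConnected V ∧
      (∃ O : Set X, IsOpen O ∧ V = {x | D.sec a x = 0} ∩ O) := by
  set S : Set X := {x | D.sec a x = 0} with hS
  have hScl : IsClosed S := D.isClosed_zero a
  have hI : ImmY (n + 1) n (Subtype.val : S → X) :=
    immY_zero D a (V := S) (fun y hy => hreg y hy) ⟨univ, isOpen_univ, by simp [hS]⟩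
  let := hI.cs
  have hlc : LocallyConnectedSpace S := ChartedSpace.locallyConnectedSpace (Cm n) S
  set s : S := ⟨x, hx⟩
  have hopen : IsOpen (connectedComponent s) := isOpen_connectedComponent
  obtain ⟨O, hO, hOV⟩ := isOpen_induced_iff.1 hopen
  refine ⟨Subtype.val '' connectedComponent s, ⟨s, mem_connectedComponent, rfl⟩,
    (hScl.isClosedEmbedding_subtypeVal.isClosedMap _ isClosed_connectedComponent),
    ⟨⟨x, s, mem_connectedComponent, rfl⟩,
      isPreconnected_connectedComponent.image _ continuous_subtype_val.continuousOn⟩, O, hO, ?_⟩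
  rw [← hOV, Subtype.image_preimage_coe]

end

section
variable {n m : ℕ} {X : Type} [TopologicalSpace X] [ChartedSpace (Cm n) X]
  [IsManifold 𝓘(ℂ, Cm n) ω X] {ι : Type} [Fintype ι]
  {Y : Type} [TopologicalSpace Y]

/-- the composition of a holomorphic germ with an immersion -/
lemma holAt_comp {F : Type} [NormedAddCommGroup F] [NormedSpace ℂ F] {j : Y → X}
    (h : ImmY n m j) {g : X → F} {y : Y} (hg : HolAt n g (j y)) :
    letI := h.cs
    HolAt m (g ∘ j) y := by
  let := h.cs
  intro c hc
  have hAt : At (chartAt (Cm n) (j y)) (j y) := ⟨chart_mem_atlas _ _, mem_chart_source _ _⟩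
  set e := chartAt (Cm n) (j y) with he
  have h1 : Imm n j c := hc.1
  have hyc : c.symm (c y) = y := hc.left_inv
  have h2 : ContDiffAt ℂ ω (fun z' => e (j (c.symm z'))) (c y) :=
    h1.omega h.cont hc.mem_target (by rw [hyc]; exact hAt)
  have h3 : AnalyticAt ℂ (fun z => g (e.symm z)) (e (j y)) := hg e hAt
  have h4 : AnalyticAt ℂ (fun z' => g (e.symm (e (j (c.symm z'))))) (c y) := by
    refine AnalyticAt.comp (g := fun z => g (e.symm z)) (f := fun z' => e (j (c.symm z'))) ?_
      h2.analyticAt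
    show AnalyticAt ℂ (fun z => g (e.symm z)) (e (j (c.symm (c y))))
    rw [hyc]
    exact h3
  refine h4.congr ?_
  have h5 : ContinuousAt (fun z' => j (c.symm z')) (c y) :=
    h.cont.continuousAt.comp (c.continuousAt_symm hc.mem_target)
  have h6 : e.source ∈ 𝓝 (j (c.symm (c y))) := by
    rw [hyc]; exact e.open_source.mem_nhds hAt.2
  filter_upwards [h5.eventually h6] with z hz
  show g (e.symm (e (j (c.symm z)))) = g (j (c.symm z))
  rw [e.left_inv hz]

/-- the restriction of homogeneous coordinates to an immersed manifold -/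
def PJ.restr (D : PJ n X ι) {j : Y → X} (h : ImmY n m j) :
    letI := h.cs
    PJ m Y ι :=
  letI := h.cs
  { Z := fun y => D.Z (j y)
    ne := fun y => D.ne (j y)
    opn := fun i => (D.opn i).preimage h.cont
    hol := fun y i hi k => holAt_comp h (D.hol (j y) i hi k)
    imm := by
      intro c y hc i hi v hv
      have hAt : At (chartAt (Cm n) (j y)) (j y) := ⟨chart_mem_atlas _ _, mem_chart_source _ _⟩
      set e := chartAt (Cm n) (j y) with he
      have h1 : Imm n j c := hc.1
      have hyc : c.symm (c y) = y := hc.left_inv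
      obtain ⟨h2, h3⟩ := h1 (c y) hc.mem_target e (by rw [hyc]; exact hAt)
      have hgy : (fun z' => e (j (c.symm z'))) (c y) = e (j y) := by simp only [hyc]
      have hj : fderiv ℂ (fun z' => e (j (c.symm z'))) (c y) v = 0 := by
        refine D.imm e (j y) hAt i hi _ fun k => ?_
        have h4 : DifferentiableAt ℂ (fun z => D.Z (e.symm z) k / D.Z (e.symm z) i)
            ((fun z' => e (j (c.symm z'))) (c y)) := by
          rw [hgy]
          exact (D.hol (j y) i hi k e hAt).differentiableAt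
        have h5 := HasFDerivAt.comp (c y) h4.hasFDerivAt h2.hasFDerivAt
        have h6 : (fun z => D.Z (j (c.symm z)) k / D.Z (j (c.symm z)) i) =ᶠ[𝓝 (c y)]
            ((fun z => D.Z (e.symm z) k / D.Z (e.symm z) i) ∘ fun z' => e (j (c.symm z'))) := by
          have h7 : ContinuousAt (fun z' => j (c.symm z')) (c y) :=
            h.cont.continuousAt.comp (c.continuousAt_symm hc.mem_target)
          have h8 : e.source ∈ 𝓝 (j (c.symm (c y))) := by
            rw [hyc]; exact e.open_source.mem_nhds hAt.2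
          filter_upwards [h7.eventually h8] with z hz
          show _ = D.Z (e.symm (e (j (c.symm z)))) k / D.Z (e.symm (e (j (c.symm z)))) i
          rw [e.left_inv hz]
        have h9 := hv k
        rw [(h5.congr_of_eventuallyEq h6).fderiv] at h9
        rw [hgy] at h9
        exact h9
      have h4 : fderiv ℂ (fun z' => e (j (c.symm z'))) (c y) v =
          fderiv ℂ (fun z' => e (j (c.symm z'))) (c y) 0 := by rw [hj, map_zero]
      exact h3 h4 }

end

section
variable {n R : ℕ} {X : Type} [TopologicalSpace X] [ChartedSpace (Cm (n + 1)) X]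
  [IsManifold 𝓘(ℂ, Cm (n + 1)) ω X] {ι : Type} [Fintype ι] (D : PJ (n + 1) X ι) (a : ι → ℂ)

/-- `(df, dσ)` surjective implies that `f` restricted to `{σ = 0}` is a submersion -/
lemma surj_restr {V : Set X} (hV : ∀ x ∈ V, D.sec a x = 0)
    (h : ImmY (n + 1) n (Subtype.val : V → X)) {e : Chart (n + 1) X} {c : OpenPartialHomeomorph V (Cm n)}
    (hc : Imm (n + 1) (Subtype.val : V → X) c) {y : V} (hy : y ∈ c.source)
    (he : At e (y : X)) {i : ι} (hi : D.Z y i ≠ 0) (f : Cm (n + 1) → Cm R)
    (hf : AnalyticAt ℂ f (e y))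
    (hs : ∀ r : Cm R, ∃ ξ, fderiv ℂ f (e y) ξ = r ∧
      fderiv ℂ (fun z => D.sig a i (e.symm z)) (e y) ξ = 0)
    (hr : fderiv ℂ (fun z => D.sig a i (e.symm z)) (e y) ≠ 0) :
    AnalyticAt ℂ (fun z => f (e (c.symm z))) (c y) ∧
      Function.Surjective (fderiv ℂ (fun z => f (e (c.symm z))) (c y)) := by
  have hyc : c.symm (c y) = y := c.left_inv hy
  have hct : c y ∈ c.target := c.map_source hy
  have hAt : At e ((c.symm (c y) : V) : X) := by rw [hyc]; exact he
  obtain ⟨h2, h3⟩ := hc (c y) hct e hAt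
  have hω := hc.omega h.cont hct hAt
  have hgy : (fun z' => e ((c.symm z' : V) : X)) (c y) = e y := by simp only [hyc]
  have hfa : AnalyticAt ℂ (fun z => f (e (c.symm z))) (c y) := by
    refine AnalyticAt.comp (g := f) (f := fun z => e ((c.symm z : V) : X)) ?_ hω.analyticAt
    rw [hyc]
    exact hf
  refine ⟨hfa, ?_⟩
  set G := fderiv ℂ (fun z' => e ((c.symm z' : V) : X)) (c y) with hG
  set S := fderiv ℂ (fun z => D.sig a i (e.symm z)) (e y) with hS
  have hσd : DifferentiableAt ℂ (fun z => D.sig a i (e.symm z)) (e y) :=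
    (D.sig_hol a hi e he).differentiableAt
  -- `dσ ∘ G = 0`
  have hSG : S.comp G = 0 := by
    have h4 : HasFDerivAt (fun z => D.sig a i (e.symm z)) S
        ((fun z' => e ((c.symm z' : V) : X)) (c y)) := by
      rw [hgy]; exact hσd.hasFDerivAt
    have h5 := HasFDerivAt.comp (c y) h4 h2.hasFDerivAt
    have h6 : ((fun z => D.sig a i (e.symm z)) ∘ fun z' => e ((c.symm z' : V) : X)) =ᶠ[𝓝 (c y)]
        fun _ => (0 : ℂ) := by
      have h7 : ContinuousAt (fun z' => ((c.symm z' : V) : X)) (c y) :=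
        h.cont.continuousAt.comp (c.continuousAt_symm hct)
      have h8 : e.source ∈ 𝓝 ((c.symm (c y) : V) : X) := e.open_source.mem_nhds hAt.2
      filter_upwards [h7.eventually h8] with z hz
      show D.sig a i (e.symm (e ((c.symm z : V) : X))) = 0
      rw [e.left_inv hz, D.sig_eq, hV _ (c.symm z).2, zero_div]
    exact (h5.congr_of_eventuallyEq h6.symm).unique (hasFDerivAt_const (0 : ℂ) (c y))
  -- the range of `G` is the kernel of `dσ`
  have hker : ∀ ξ, S ξ = 0 → ∃ v, G v = ξ := by
    have h4 : LinearMap.range (G : Cm n →ₗ[ℂ] Cm (n + 1)) ≤ LinearMap.ker (S : Cm (n + 1) →ₗ[ℂ] ℂ) := by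
      rintro _ ⟨v, rfl⟩
      exact congrArg (fun T : Cm n →L[ℂ] ℂ => T v) hSG
    have h5 : Module.finrank ℂ (LinearMap.range (G : Cm n →ₗ[ℂ] Cm (n + 1))) = n := by
      rw [LinearMap.finrank_range_of_inj h3]
      simp
    have h6 : Module.finrank ℂ (LinearMap.ker (S : Cm (n + 1) →ₗ[ℂ] ℂ)) = n := by
      have h7 := (S : Cm (n + 1) →ₗ[ℂ] ℂ).finrank_range_add_finrank_ker
      have h8 : LinearMap.range (S : Cm (n + 1) →ₗ[ℂ] ℂ) = ⊤ := by
        refine LinearMap.range_eq_top.2 ?_
        obtain ⟨v, hv⟩ : ∃ v, S v ≠ 0 := by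
          by_contra hcon
          push Not at hcon
          exact hr (ContinuousLinearMap.ext hcon)
        intro t
        refine ⟨(t / S v) • v, ?_⟩
        show S ((t / S v) • v) = t
        rw [map_smul, smul_eq_mul, div_mul_cancel₀ _ hv]
      rw [h8, finrank_top] at h7
      simp only [Module.finrank_self, Module.finrank_fintype_fun_eq_card, Fintype.card_fin] at h7
      omega
    have h7 := Submodule.eq_of_le_of_finrank_eq h4 (h5.trans h6.symm)
    intro ξ hξ
    have h8 : ξ ∈ LinearMap.ker (S : Cm (n + 1) →ₗ[ℂ] ℂ) := hξ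
    rw [← h7] at h8
    exact h8
  intro r
  obtain ⟨ξ, h4, h5⟩ := hs r
  obtain ⟨v, hv⟩ := hker ξ h5
  refine ⟨v, ?_⟩
  have h6 : HasFDerivAt f (fderiv ℂ f (e y)) ((fun z' => e ((c.symm z' : V) : X)) (c y)) := by
    rw [hgy]; exact hf.differentiableAt.hasFDerivAt
  have h7 := HasFDerivAt.comp (c y) h6 h2.hasFDerivAt
  have h8 : fderiv ℂ (fun z => f (e ((c.symm z : V) : X))) (c y) = (fderiv ℂ f (e y)).comp G :=
    h7.fderiv
  rw [h8, ContinuousLinearMap.comp_apply, hv, h4]

end

end Vale.Agent.P284.H998
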