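import Vale.Agent.P284.H998.Z3b
import Vale.Agent.P284.H335.Bad

/-!
# P284 (helper998), module Z: generic sections are regular; a generic section with a zero near `x₀`
-/

open scoped Manifold ContDiff Topology ComplexOrder
open Filter Set

noncomputable section

namespace Vale.Agent.P284.H998

open Vale.Agent.P272.K Vale.Agent.P299.H908 Vale.Agent.P284.H730.G

/-- linear forms without common zero span the dual space -/
lemma span_of_inj {n : ℕ} {ι : Type} [Fintype ι] (L : ι → Cm n →L[ℂ] ℂ)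
    (h : ∀ v, (∀ j, L j v = 0) → v = 0) (l : Cm n →L[ℂ] ℂ) : ∃ a : ι → ℂ, ∑ j, a j • L j = l := by
  classical
  set T : Cm n →ₗ[ℂ] (ι → ℂ) := LinearMap.pi fun j => (L j : Cm n →ₗ[ℂ] ℂ) with hT
  have hinj : LinearMap.ker T = ⊥ := by
    rw [LinearMap.ker_eq_bot']
    intro v hv
    exact h v fun j => congrFun hv j
  obtain ⟨G, hG⟩ := T.exists_leftInverse_of_injective hinj
  refine ⟨fun j => l (G (Pi.single j 1)), ?_⟩
  ext v
  have h1 : G (T v) = v := LinearMap.congr_fun hG v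
  have h2 : T v = ∑ j, (L j v) • (Pi.single j (1 : ℂ) : ι → ℂ) := by
    funext k
    simp [hT, Finset.sum_apply, Pi.single_apply]
  have h3 : l v = ∑ j, L j v * l (G (Pi.single j 1)) := by
    conv_lhs => rw [← h1, h2, map_sum, map_sum]
    exact Finset.sum_congr rfl fun j _ => by rw [map_smul, map_smul, smul_eq_mul]
  rw [h3, ContinuousLinearMap.sum_apply]
  exact Finset.sum_congr rfl fun j _ => by
    rw [ContinuousLinearMap.smul_apply, smul_eq_mul, mul_comm]

lemma eventually_surj {T E F : Type*} [TopologicalSpace T] [NormedAddCommGroup E]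
    [NormedSpace ℂ E] [NormedAddCommGroup F] [NormedSpace ℂ F] [FiniteDimensional ℂ F]
    {M : T → E →L[ℂ] F} {t₀ : T} (hM : ContinuousAt M t₀) (hs : Function.Surjective (M t₀)) :
    ∀ᶠ t in 𝓝 t₀, Function.Surjective (M t) := by
  have hF : CompleteSpace F := FiniteDimensional.complete ℂ F
  obtain ⟨S0, hS0⟩ := (M t₀ : E →ₗ[ℂ] F).exists_rightInverse_of_surjective
    (LinearMap.range_eq_top.mpr hs)
  set S : F →L[ℂ] E := LinearMap.toContinuousLinearMap S0 with hSdef
  have hS : ∀ v, M t₀ (S v) = v := fun v => LinearMap.congr_fun hS0 v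
  have h1 : ContinuousAt (fun t => (M t).comp S) t₀ := hM.clm_comp continuousAt_const
  have h2 : IsUnit ((M t₀).comp S) := by
    have : (M t₀).comp S = 1 := by
      ext v
      simp [hS]
    rw [this]
    exact isUnit_one
  filter_upwards [h1.eventually (Units.isOpen.mem_nhds h2)] with t ht
  obtain ⟨u, hu⟩ := ht
  intro v
  refine ⟨S ((↑u⁻¹ : F →L[ℂ] F) v), ?_⟩
  have h3 : (M t) (S ((↑u⁻¹ : F →L[ℂ] F) v)) = (u : F →L[ℂ] F) ((↑u⁻¹ : F →L[ℂ] F) v) := by
    rw [hu]; rfl
  rw [h3, ← ContinuousLinearMap.mul_apply, Units.mul_inv]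
  rfl

section
variable {n : ℕ} {X : Type} [TopologicalSpace X] [ChartedSpace (Cm n) X]
  {ι : Type} [Fintype ι] (D : PJ n X ι)

/-- the coordinate functions in a chart -/
def PJ.u (e : Chart n X) (i j : ι) (z : Cm n) : ℂ := D.Z (e.symm z) j / D.Z (e.symm z) i

variable {e : Chart n X} {x : X} {i : ι}

lemma PJ.u_an (he : At e x) (hi : D.Z x i ≠ 0) (j : ι) : AnalyticAt ℂ (D.u e i j) (e x) :=
  D.hol x i hi j e he

lemma PJ.nhds_u [IsManifold 𝓘(ℂ, Cm n) ω X] (he : At e x) (hi : D.Z x i ≠ 0) :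
    ∀ᶠ z in 𝓝 (e x), z ∈ e.target ∧ At e (e.symm z) ∧ D.Z (e.symm z) i ≠ 0 := by
  have hc : Tendsto e.symm (𝓝 (e x)) (𝓝 x) := by
    have := (e.continuousAt_symm he.mem_target).tendsto
    rwa [he.left_inv] at this
  filter_upwards [he.nhds_target, hc.eventually ((D.opn i).mem_nhds hi)] with z hz hz2
  exact ⟨hz, At.of_target he.1 hz, hz2⟩

lemma PJ.sig_u (a : ι → ℂ) (z : Cm n) : D.sig a i (e.symm z) = ∑ j, a j * D.u e i j z := rfl

lemma PJ.fderiv_sig (a : ι → ℂ) (he : At e x) (hi : D.Z x i ≠ 0) :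
    fderiv ℂ (fun z => D.sig a i (e.symm z)) (e x) = ∑ j, a j • fderiv ℂ (D.u e i j) (e x) := by
  have h1 : ∀ j ∈ Finset.univ, HasFDerivAt (fun z => a j * D.u e i j z)
      (a j • fderiv ℂ (D.u e i j) (e x)) (e x) := fun j _ =>
    (D.u_an he hi j).differentiableAt.hasFDerivAt.const_mul (a j)
  exact (HasFDerivAt.fun_sum h1).fderiv

/-- the functions `u j` span the `1`-jets -/
lemma PJ.jets (he : At e x) (hi : D.Z x i ≠ 0) (c : ℂ) (l : Cm n →L[ℂ] ℂ) :
    ∃ a : ι → ℂ, ∑ j, a j * D.u e i j (e x) = c ∧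
      ∑ j, a j • fderiv ℂ (D.u e i j) (e x) = l := by
  classical
  obtain ⟨b, hb⟩ := span_of_inj (fun j => fderiv ℂ (D.u e i j) (e x))
    (fun v hv => D.imm e x he i hi v hv) l
  have hui : D.u e i i =ᶠ[𝓝 (e x)] fun _ => (1 : ℂ) := by
    have hc : Tendsto e.symm (𝓝 (e x)) (𝓝 x) := by
      have := (e.continuousAt_symm he.mem_target).tendsto
      rwa [he.left_inv] at this
    filter_upwards [hc.eventually ((D.opn i).mem_nhds hi)] with z hz
    exact div_self hz
  have hdi : fderiv ℂ (D.u e i i) (e x) = 0 := by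
    rw [hui.fderiv_eq]
    exact fderiv_const_apply _
  have hui' : D.u e i i (e x) = 1 := hui.self_of_nhds
  set t : ℂ := c - ∑ j, b j * D.u e i j (e x) with ht
  refine ⟨b + Pi.single i t, ?_, ?_⟩
  · simp only [Pi.add_apply, add_mul, Finset.sum_add_distrib]
    have h1 : ∑ j, (Pi.single i t : ι → ℂ) j * D.u e i j (e x) = t := by
      rw [Finset.sum_eq_single i]
      · rw [Pi.single_eq_same, hui', mul_one]
      · intro j _ hj
        rw [Pi.single_eq_of_ne hj, zero_mul]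
      · intro h; exact absurd (Finset.mem_univ _) h
    rw [h1, ht]
    ring
  · rw [← hb]
    ext v
    simp only [ContinuousLinearMap.sum_apply, ContinuousLinearMap.smul_apply, Pi.add_apply,
      smul_eq_mul, add_mul, Finset.sum_add_distrib]
    have h1 : ∑ j, (Pi.single i t : ι → ℂ) j * fderiv ℂ (D.u e i j) (e x) v = 0 := by
      refine Finset.sum_eq_zero fun j _ => ?_
      by_cases hj : j = i
      · subst hj
        rw [hdi, ContinuousLinearMap.zero_apply, mul_zero]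
      · rw [Pi.single_eq_of_ne hj, zero_mul]
    rw [h1, add_zero]

omit [TopologicalSpace X] [ChartedSpace (Cm n) X] in
lemma dimH_finset_lt {E : Type*} [EMetricSpace E] (t : Finset X) (s : X → Set E) {d : ENNReal}
    (hd : 0 < d) (h : ∀ x, dimH (s x) < d) : dimH (⋃ x ∈ t, s x) < d := by
  classical
  induction t using Finset.induction_on with
  | empty => simpa using hd
  | insert a t _ ih =>
    rw [Finset.set_biUnion_insert, dimH_union]
    exact max_lt (h a) ih

/-- **Bertini**: the regular sections are dense -/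
theorem dense_reg [IsManifold 𝓘(ℂ, Cm n) ω X] [CompactSpace X] :
    Dense {a : ι → ℂ | ∀ x, D.sec a x = 0 → D.RegAt a x} := by
  classical
  rcases isEmpty_or_nonempty X with hX | ⟨⟨x₀⟩⟩
  · have : {a : ι → ℂ | ∀ x, D.sec a x = 0 → D.RegAt a x} = univ :=
      eq_univ_of_forall fun a x => (hX.false x).elim
    rw [this]
    exact dense_univ
  have hloc : ∀ x : X, ∃ N ∈ 𝓝 x, dimH {a : ι → ℂ | ∃ y ∈ N, D.sec a y = 0 ∧ ¬ D.RegAt a y} <
      Module.finrank ℝ (ι → ℂ) := by
    intro x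
    obtain ⟨i, hi⟩ := D.exists_ne x
    set e := chartAt (Cm n) x with he
    have hAt : At e x := ⟨chart_mem_atlas _ _, mem_chart_source _ _⟩
    obtain ⟨U, hU, hdim⟩ := Vale.Agent.P284.H335.badStmt n ι (D.u e i) (e x)
      (fun j => D.u_an hAt hi j) (fun c l => D.jets hAt hi c l)
    refine ⟨{y | At e y ∧ e y ∈ U ∧ D.Z y i ≠ 0}, ?_, lt_of_le_of_lt (dimH_mono ?_) hdim⟩
    · filter_upwards [e.open_source.mem_nhds hAt.2, (e.continuousAt hAt.2).eventually hU,
        (D.opn i).mem_nhds hi] with y h1 h2 h3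
      exact ⟨⟨hAt.1, h1⟩, h2, h3⟩
    · rintro a ⟨y, ⟨h1, h2, h3⟩, h4, h5⟩
      refine ⟨e y, h2, ?_, ?_⟩
      · rw [← D.sig_u, h1.left_inv]
        exact (D.sig_zero_iff a h3).2 h4
      · by_contra hne
        apply h5
        refine regAt_of D a h4 h1 h3 ?_
        rw [D.fderiv_sig a h1 h3]
        exact hne
  choose N hN hdim using hloc
  obtain ⟨t, ht⟩ := isCompact_univ.elim_nhds_subcover N (fun x _ => hN x)
  have h1 : {a : ι → ℂ | ∀ x, D.sec a x = 0 → D.RegAt a x}ᶜ ⊆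
      ⋃ x ∈ t, {a : ι → ℂ | ∃ y ∈ N x, D.sec a y = 0 ∧ ¬ D.RegAt a y} := by
    intro a ha
    simp only [mem_compl_iff, mem_setOf_eq, not_forall] at ha
    obtain ⟨y, h0, h2⟩ := ha
    obtain ⟨x, hx, hy⟩ := mem_iUnion₂.1 (ht.2 (mem_univ y))
    exact mem_iUnion₂.2 ⟨x, hx, y, hy, h0, h2⟩
  have h2 : dimH ({a : ι → ℂ | ∀ x, D.sec a x = 0 → D.RegAt a x}ᶜ) <
      Module.finrank ℝ (ι → ℂ) := by
    exact lt_of_le_of_lt (dimH_mono h1)
      (dimH_finset_lt t _ (lt_of_le_of_lt zero_le (hdim x₀)) hdim)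
  have h3 := dense_compl_of_dimH_lt_finrank h2
  rwa [compl_compl] at h3

end

end Vale.Agent.P284.H998
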