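import Vale.Agent.P284.H998.Z3c

/-!
# P284 (helper998), module Z: a regular section with a good zero near `x₀`
-/

open scoped Manifold ContDiff Topology ComplexOrder
open Filter Set

noncomputable section

namespace Vale.Agent.P284.H998

open Vale.Agent.P272.K Vale.Agent.P299.H908 Vale.Agent.P284.H730.G

/-- the pair `(df, dσ)` is surjective -/
lemma surj_pair {n R : ℕ} (P : Cm n →L[ℂ] Cm R) (S : Cm n →L[ℂ] ℂ) (hP : Function.Surjective P)
    {v : Cm n} (hv : P v = 0) (hS : S v ≠ 0) : Function.Surjective (P.prod S) := by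
  rintro ⟨r, c⟩
  obtain ⟨ξ, hξ⟩ := hP r
  refine ⟨ξ + ((c - S ξ) / S v) • v, ?_⟩
  rw [ContinuousLinearMap.prod_apply, map_add, map_smul, hv, smul_zero, add_zero, hξ, map_add,
    map_smul, smul_eq_mul, div_mul_cancel₀ _ hS]
  simp

section
variable {n R : ℕ} {X : Type} [TopologicalSpace X] [ChartedSpace (Cm (n + 1)) X]
  [IsManifold 𝓘(ℂ, Cm (n + 1)) ω X] {ι : Type} [Fintype ι] (D : PJ (n + 1) X ι)

/-- near `a⁰` every section has a zero on the line `x₀ + ℂ v₀` near `x₀` -/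
lemma zero_near {k : ℕ} (u : ι → Cm k → ℂ) (z₀ v₀ : Cm k) (hu : ∀ j, AnalyticAt ℂ (u j) z₀)
    (a0 : ι → ℂ) (h0 : ∑ j, a0 j * u j z₀ = 0) (h1 : ∑ j, a0 j * fderiv ℂ (u j) z₀ v₀ = 1)
    {A : Set ((ι → ℂ) × Cm k)} (hA : A ∈ 𝓝 (a0, z₀)) :
    ∀ᶠ a in 𝓝 a0, ∃ z, (a, z) ∈ A ∧ ∑ j, a j * u j z = 0 := by
  set g : (ι → ℂ) × ℂ → ℂ := fun p => ∑ j, p.1 j * u j (z₀ + p.2 • v₀) with hg
  set F : (ι → ℂ) × ℂ → (ι → ℂ) × ℂ := fun p => (p.1, g p) with hF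
  have hline : ContDiffAt ℂ 1 (fun p : (ι → ℂ) × ℂ => z₀ + p.2 • v₀) (a0, 0) := by fun_prop
  have hgc : ContDiffAt ℂ 1 g (a0, 0) := by
    refine ContDiffAt.sum fun j _ => ?_
    have h2 : ContDiffAt ℂ 1 (fun p : (ι → ℂ) × ℂ => p.1 j) (a0, 0) := by fun_prop
    have h3 : ContDiffAt ℂ 1 (fun p : (ι → ℂ) × ℂ => u j (z₀ + p.2 • v₀)) (a0, 0) := by
      refine ContDiffAt.comp (a0, (0 : ℂ)) (g := u j) ?_ hline
      show ContDiffAt ℂ 1 (u j) (z₀ + (0 : ℂ) • v₀)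
      rw [zero_smul, add_zero]
      exact (hu j).contDiffAt
    exact h2.mul h3
  have hFc : ContDiffAt ℂ 1 F (a0, 0) := contDiffAt_fst.prodMk hgc
  have hs := hFc.hasStrictFDerivAt (by simp)
  -- the derivative of `g` in the direction `(0, 1)`
  have hg1 : fderiv ℂ g (a0, 0) (0, 1) = 1 := by
    have h2 : HasDerivAt (fun t : ℂ => g (a0, t)) (fderiv ℂ g (a0, 0) (0, 1)) 0 := by
      have h3 : HasFDerivAt g (fderiv ℂ g (a0, 0)) (a0, (0 : ℂ)) :=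
        (hgc.differentiableAt (by simp)).hasFDerivAt
      have h4 : HasDerivAt (fun t : ℂ => ((a0, t) : (ι → ℂ) × ℂ)) (0, 1) 0 :=
        (hasDerivAt_const (0 : ℂ) a0).prodMk (hasDerivAt_id (0 : ℂ))
      exact h3.comp_hasDerivAt (0 : ℂ) h4
    have h5 : HasDerivAt (fun t : ℂ => g (a0, t)) (∑ j, a0 j * fderiv ℂ (u j) z₀ v₀) 0 := by
      refine HasDerivAt.fun_sum fun j _ => HasDerivAt.const_mul (a0 j) ?_
      have h6 : HasDerivAt (fun t : ℂ => z₀ + t • v₀) v₀ 0 := by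
        have := ((hasDerivAt_id (0 : ℂ)).smul_const v₀).const_add z₀
        simpa using this
      have h7 : HasFDerivAt (u j) (fderiv ℂ (u j) z₀) (z₀ + (0 : ℂ) • v₀) := by
        rw [zero_smul, add_zero]
        exact (hu j).differentiableAt.hasFDerivAt
      exact h7.comp_hasDerivAt (0 : ℂ) h6
    rw [h2.unique h5, h1]
  have hfd : fderiv ℂ F (a0, 0) = (ContinuousLinearMap.fst ℂ (ι → ℂ) ℂ).prod (fderiv ℂ g (a0, 0)) :=
    (hasFDerivAt_fst.prodMk (hgc.differentiableAt (by simp)).hasFDerivAt).fderiv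
  have hsurj : (fderiv ℂ F (a0, 0)).range = ⊤ := by
    rw [LinearMap.range_eq_top]
    rintro ⟨b, c⟩
    refine ⟨(b, c - fderiv ℂ g (a0, 0) (b, 0)), ?_⟩
    have h8 : ((b, c - fderiv ℂ g (a0, 0) (b, 0)) : (ι → ℂ) × ℂ) =
        (b, 0) + (c - fderiv ℂ g (a0, 0) (b, 0)) • ((0, 1) : (ι → ℂ) × ℂ) := by
      ext <;> simp
    have h9 : fderiv ℂ g (a0, 0) (b, c - fderiv ℂ g (a0, 0) (b, 0)) = c := by
      rw [h8, map_add, map_smul, hg1]
      simp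
    rw [hfd]
    show ((b, fderiv ℂ g (a0, 0) (b, c - fderiv ℂ g (a0, 0) (b, 0))) : (ι → ℂ) × ℂ) = (b, c)
    rw [h9]
  have hmap := hs.map_nhds_eq_of_surj hsurj
  have hF0 : F (a0, 0) = (a0, 0) := by
    show (a0, g (a0, 0)) = (a0, 0)
    have : g (a0, 0) = 0 := by
      rw [hg]
      simp only [zero_smul, add_zero]
      exact h0
    rw [this]
  have hA' : {p : (ι → ℂ) × ℂ | (p.1, z₀ + p.2 • v₀) ∈ A} ∈ 𝓝 (a0, (0 : ℂ)) := by
    have hc : ContinuousAt (fun p : (ι → ℂ) × ℂ => (p.1, z₀ + p.2 • v₀)) (a0, 0) := by fun_prop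
    have h2 : A ∈ 𝓝 ((fun p : (ι → ℂ) × ℂ => (p.1, z₀ + p.2 • v₀)) (a0, 0)) := by
      simpa using hA
    exact hc h2
  have himg := Filter.image_mem_map hA' (m := F)
  rw [hmap, hF0] at himg
  have hc : ContinuousAt (fun a : ι → ℂ => (a, (0 : ℂ))) a0 := by fun_prop
  filter_upwards [hc himg] with a ha
  obtain ⟨⟨a', t⟩, h2, h3⟩ := ha
  have h4 : a' = a := congrArg Prod.fst h3
  have h5 : g (a', t) = 0 := congrArg Prod.snd h3
  subst h4
  exact ⟨z₀ + t • v₀, h2, h5⟩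

/-- a regular section with a zero near `x₀` at which `(df, dσ)` is surjective -/
theorem exists_good [CompactSpace X] (hR : R ≤ n) {e : Chart (n + 1) X} {x₀ : X} (he : At e x₀)
    {W : Set X} (hW : W ∈ 𝓝 x₀) {f : Cm (n + 1) → Cm R} (hf : AnalyticAt ℂ f (e x₀))
    (hs : Function.Surjective (fderiv ℂ f (e x₀))) :
    ∃ (a : ι → ℂ) (i : ι) (y : X), (∀ x, D.sec a x = 0 → D.RegAt a x) ∧ D.sec a y = 0 ∧ y ∈ W ∧
      At e y ∧ D.Z y i ≠ 0 ∧ AnalyticAt ℂ f (e y) ∧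
      ∀ r : Cm R, ∃ ξ, fderiv ℂ f (e y) ξ = r ∧
        fderiv ℂ (fun z => D.sig a i (e.symm z)) (e y) ξ = 0 := by
  obtain ⟨i, hi⟩ := D.exists_ne x₀
  set z₀ := e x₀ with hz₀
  -- a vector in the kernel of `df`
  obtain ⟨v₀, hv₀, hv₀n⟩ : ∃ v₀, fderiv ℂ f z₀ v₀ = 0 ∧ v₀ ≠ 0 := by
    by_contra hcon
    push Not at hcon
    have hinj : Function.Injective (fderiv ℂ f z₀ : Cm (n + 1) →ₗ[ℂ] Cm R) := by
      rw [← LinearMap.ker_eq_bot, LinearMap.ker_eq_bot']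
      exact fun v hv => hcon v hv
    have := LinearMap.finrank_le_finrank_of_injective hinj
    simp only [Module.finrank_fintype_fun_eq_card, Fintype.card_fin] at this
    omega
  -- the section `a⁰`
  obtain ⟨l, hl⟩ : ∃ l : Cm (n + 1) →L[ℂ] ℂ, l v₀ = 1 := by
    obtain ⟨k, hk⟩ := Function.ne_iff.1 hv₀n
    refine ⟨(v₀ k)⁻¹ • ContinuousLinearMap.proj k, ?_⟩
    exact inv_mul_cancel₀ hk
  obtain ⟨a0, ha0, ha1⟩ := D.jets he hi 0 l
  have ha1' : ∑ j, a0 j * fderiv ℂ (D.u e i j) z₀ v₀ = 1 := by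
    rw [← hl, ← ha1, sum_apply]
    exact Finset.sum_congr rfl fun j _ => rfl
  -- surjectivity of `(df, dσ)` is open
  set M : (ι → ℂ) × Cm (n + 1) → Cm (n + 1) →L[ℂ] Cm R × ℂ := fun p =>
    (fderiv ℂ f p.2).prod (∑ j, p.1 j • fderiv ℂ (D.u e i j) p.2) with hM
  have hMc : ContinuousAt M (a0, z₀) := by
    have h1 : ContinuousAt (fun p : (ι → ℂ) × Cm (n + 1) => fderiv ℂ f p.2) (a0, z₀) :=
      ContinuousAt.comp (g := fderiv ℂ f) (f := Prod.snd) hf.fderiv.continuousAt continuousAt_snd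
    have h2 : ContinuousAt (fun p : (ι → ℂ) × Cm (n + 1) =>
        ∑ j, p.1 j • fderiv ℂ (D.u e i j) p.2) (a0, z₀) := by
      refine tendsto_finset_sum _ fun j _ => ?_
      have h3 : ContinuousAt (fun p : (ι → ℂ) × Cm (n + 1) => fderiv ℂ (D.u e i j) p.2) (a0, z₀) :=
        ContinuousAt.comp (g := fderiv ℂ (D.u e i j)) (f := Prod.snd)
          (D.u_an he hi j).fderiv.continuousAt continuousAt_snd
      have h4 : ContinuousAt (fun p : (ι → ℂ) × Cm (n + 1) => p.1 j) (a0, z₀) := by fun_prop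
      exact h4.smul h3
    exact (ContinuousLinearMap.prodₗᵢ ℂ : _ ≃ₗᵢ[ℂ] (Cm (n + 1) →L[ℂ] Cm R × ℂ)).continuous.continuousAt.comp
      (h1.prodMk h2)
  have hMs : Function.Surjective (M (a0, z₀)) := by
    refine surj_pair _ _ hs hv₀ ?_
    show (∑ j, a0 j • fderiv ℂ (D.u e i j) z₀) v₀ ≠ 0
    rw [ha1, hl]
    exact one_ne_zero
  have hMe := eventually_surj hMc hMs
  have hE : {p : (ι → ℂ) × Cm (n + 1) | Function.Surjective (M p) ∧ (p.2 ∈ e.target ∧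
      At e (e.symm p.2) ∧ D.Z (e.symm p.2) i ≠ 0) ∧ AnalyticAt ℂ f p.2 ∧ e.symm p.2 ∈ W} ∈
      𝓝 (a0, z₀) := by
    have hc2 : Tendsto (Prod.snd : (ι → ℂ) × Cm (n + 1) → Cm (n + 1)) (𝓝 (a0, z₀)) (𝓝 z₀) :=
      continuousAt_snd
    have hcs : Tendsto e.symm (𝓝 z₀) (𝓝 x₀) := by
      have := (e.continuousAt_symm he.mem_target).tendsto
      rwa [he.left_inv] at this
    filter_upwards [hMe, hc2.eventually (D.nhds_u he hi), hc2.eventually hf.eventually_analyticAt,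
      hc2.eventually (hcs.eventually hW)] with p h1 h2 h3 h4
    exact ⟨h1, h2, h3, h4⟩
  have hev := zero_near (D.u e i) z₀ v₀ (fun j => D.u_an he hi j) a0 ha0 ha1' hE
  obtain ⟨a, ha, z, ⟨h1, ⟨h2, h3, h4⟩, h5, h6⟩, h7⟩ := (dense_reg D).inter_nhds_nonempty hev
  have hez : e (e.symm z) = z := e.right_inv h2
  refine ⟨a, i, e.symm z, ha, ?_, h6, h3, h4, by rw [hez]; exact h5, fun r => ?_⟩
  · rw [← D.sig_zero_iff a h4, D.sig_u]
    exact h7
  · obtain ⟨ξ, hξ⟩ := h1 (r, 0)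
    refine ⟨ξ, ?_, ?_⟩
    · rw [hez]
      exact congrArg Prod.fst hξ
    · rw [D.fderiv_sig a h3 h4, hez]
      exact congrArg Prod.snd hξ

end

end Vale.Agent.P284.H998
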