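import Vale.Agent.P272.K.QN.H705.Pull
import Mathlib.Data.Matrix.ColumnRowPartitioned

/-!
# P284 (helper998), module Z: linear algebra of the adjunction formula
-/

open scoped Matrix
open Matrix

noncomputable section

namespace Vale.Agent.P284.H998

variable {n : ℕ}

/-- the square matrix `(J | ν)` -/
def aug (J : Matrix (Fin (n + 1)) (Fin n) ℂ) (ν : Fin (n + 1) → ℂ) :
    Matrix (Fin (n + 1)) (Fin n ⊕ Fin 1) ℂ := fromCols J (Matrix.of fun p _ => ν p)

/-- the determinant of `(J | ν)` -/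
def dt (J : Matrix (Fin (n + 1)) (Fin n) ℂ) (ν : Fin (n + 1) → ℂ) : ℂ :=
  ((aug J ν).submatrix id (finSumFinEquiv (m := n) (n := 1)).symm).det

lemma aug_mul_left (T : Matrix (Fin (n + 1)) (Fin (n + 1)) ℂ)
    (J : Matrix (Fin (n + 1)) (Fin n) ℂ) (ν : Fin (n + 1) → ℂ) :
    aug (T * J) (T.mulVec ν) = T * aug J ν := by
  ext p (q | q)
  · simp [aug, Matrix.mul_apply]
  · simp [aug, Matrix.mul_apply, Matrix.mulVec, dotProduct]

lemma dt_mul_left (T : Matrix (Fin (n + 1)) (Fin (n + 1)) ℂ)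
    (J : Matrix (Fin (n + 1)) (Fin n) ℂ) (ν : Fin (n + 1) → ℂ) :
    dt (T * J) (T.mulVec ν) = T.det * dt J ν := by
  unfold dt
  rw [aug_mul_left, ← Matrix.det_mul]
  congr 1

lemma dt_aux (J : Matrix (Fin (n + 1)) (Fin n) ℂ) (ν : Fin (n + 1) → ℂ)
    (B : Matrix (Fin n ⊕ Fin 1) (Fin n ⊕ Fin 1) ℂ) :
    ((aug J ν * B).submatrix id (finSumFinEquiv (m := n) (n := 1)).symm).det = dt J ν * B.det := by
  unfold dt
  rw [← Matrix.det_submatrix_equiv_self (finSumFinEquiv (m := n) (n := 1)).symm B,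
    ← Matrix.det_mul]
  congr 1
  rw [Matrix.submatrix_mul_equiv (aug J ν) B id (finSumFinEquiv (m := n) (n := 1)).symm]

lemma dt_mul_right (J : Matrix (Fin (n + 1)) (Fin n) ℂ) (ν : Fin (n + 1) → ℂ)
    (τ : Matrix (Fin n) (Fin n) ℂ) : dt (J * τ) ν = dt J ν * τ.det := by
  have h1 : aug (J * τ) ν = aug J ν * fromBlocks τ 0 0 1 := by
    unfold aug
    rw [fromCols_mul_fromBlocks]
    simp
  have h2 := dt_aux J ν (fromBlocks τ 0 0 1)
  rw [← h1, Matrix.det_fromBlocks_zero₂₁, Matrix.det_one, mul_one] at h2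
  exact h2

lemma dt_add_smul (J : Matrix (Fin (n + 1)) (Fin n) ℂ) (ν : Fin (n + 1) → ℂ) (w : Fin n → ℂ)
    (c : ℂ) : dt J (J.mulVec w + c • ν) = c * dt J ν := by
  have h1 : aug J (J.mulVec w + c • ν) =
      aug J ν * fromBlocks 1 (Matrix.of fun p _ => w p) 0 (Matrix.of fun _ _ => c) := by
    unfold aug
    rw [fromCols_mul_fromBlocks]
    ext p (q | q)
    · simp
    · simp [Matrix.mul_apply, Matrix.mulVec, dotProduct, mul_comm]
  have h2 := dt_aux J ν (fromBlocks 1 (Matrix.of fun p _ => w p) 0 (Matrix.of fun _ _ => c))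
  rw [← h1, Matrix.det_fromBlocks_zero₂₁, Matrix.det_one, one_mul] at h2
  unfold dt at h2 ⊢
  rw [h2]
  simp [mul_comm]

variable {J : Matrix (Fin (n + 1)) (Fin n) ℂ} {s : Fin (n + 1) → ℂ}

/-- `C^{n+1} = im J + ℂ ν` if `s ν ≠ 0` -/
lemma exists_dec (hJ : Function.Injective J.mulVec) (hs : s ᵥ* J = 0) {ν : Fin (n + 1) → ℂ}
    (hν : s ⬝ᵥ ν ≠ 0) (ν' : Fin (n + 1) → ℂ) :
    ∃ w, ν' = J.mulVec w + ((s ⬝ᵥ ν') / (s ⬝ᵥ ν)) • ν := by
  -- the range of `J` is the kernel of `s`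
  set S : (Fin (n + 1) → ℂ) →ₗ[ℂ] ℂ := (dotProductBilin ℂ ℂ s : (Fin (n + 1) → ℂ) →ₗ[ℂ] ℂ) with hS
  have hSa : ∀ v, S v = s ⬝ᵥ v := fun v => rfl
  have h4 : LinearMap.range J.mulVecLin ≤ LinearMap.ker S := by
    rintro _ ⟨v, rfl⟩
    rw [LinearMap.mem_ker, hSa, Matrix.mulVecLin_apply, Matrix.dotProduct_mulVec, hs,
      zero_dotProduct]
  have h5 : Module.finrank ℂ (LinearMap.range J.mulVecLin) = n := by
    rw [LinearMap.finrank_range_of_inj hJ]
    simp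
  have h6 : Module.finrank ℂ (LinearMap.ker S) = n := by
    have h7 := S.finrank_range_add_finrank_ker
    have h8 : LinearMap.range S = ⊤ := by
      refine LinearMap.range_eq_top.2 fun t => ⟨(t / (s ⬝ᵥ ν)) • ν, ?_⟩
      rw [map_smul, hSa, smul_eq_mul, div_mul_cancel₀ _ hν]
    rw [h8, finrank_top] at h7
    simp only [Module.finrank_self, Module.finrank_fintype_fun_eq_card, Fintype.card_fin] at h7
    omega
  have h7 := Submodule.eq_of_le_of_finrank_eq h4 (h5.trans h6.symm)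
  have h8 : ν' - ((s ⬝ᵥ ν') / (s ⬝ᵥ ν)) • ν ∈ LinearMap.ker S := by
    rw [LinearMap.mem_ker, map_sub, map_smul, hSa, hSa, smul_eq_mul, div_mul_cancel₀ _ hν, sub_self]
  rw [← h7] at h8
  obtain ⟨w, hw⟩ := h8
  refine ⟨w, ?_⟩
  rw [Matrix.mulVecLin_apply] at hw
  rw [hw]
  abel

lemma dt_ratio (hJ : Function.Injective J.mulVec) (hs : s ᵥ* J = 0) {ν ν' : Fin (n + 1) → ℂ}
    (hν : s ⬝ᵥ ν ≠ 0) : dt J ν' * (s ⬝ᵥ ν) = dt J ν * (s ⬝ᵥ ν') := by
  obtain ⟨w, hw⟩ := exists_dec hJ hs hν ν'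
  have h1 : dt J ν' = (s ⬝ᵥ ν') / (s ⬝ᵥ ν) * dt J ν := by
    conv_lhs => rw [hw]
    exact dt_add_smul J ν w _
  rw [h1]
  field_simp

lemma dt_ne_zero (hJ : Function.Injective J.mulVec) (hs : s ᵥ* J = 0) {ν : Fin (n + 1) → ℂ}
    (hν : s ⬝ᵥ ν ≠ 0) : dt J ν ≠ 0 := by
  intro h0
  unfold dt at h0
  obtain ⟨v, hv0, hv⟩ := Matrix.exists_mulVec_eq_zero_iff.2 h0
  apply hv0
  -- `(J | ν) v = 0`
  set w : Fin n → ℂ := fun q => v (finSumFinEquiv (Sum.inl q)) with hw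
  set c : ℂ := v (finSumFinEquiv (m := n) (n := 1) (Sum.inr 0)) with hc
  have h1 : J.mulVec w + c • ν = 0 := by
    rw [← hv]
    funext p
    simp only [Matrix.mulVec, dotProduct, Pi.add_apply, Pi.smul_apply, smul_eq_mul,
      Matrix.submatrix_apply, id_eq]
    rw [← (finSumFinEquiv (m := n) (n := 1)).sum_comp]
    simp only [Equiv.symm_apply_apply, Fintype.sum_sum_type, aug, fromCols_apply_inl,
      fromCols_apply_inr, Matrix.of_apply, Finset.univ_unique, Fin.default_eq_zero,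
      Finset.sum_singleton]
    rw [hc, mul_comm (ν p)]
  have h2 : s ⬝ᵥ (J.mulVec w + c • ν) = c * (s ⬝ᵥ ν) := by
    rw [dotProduct_add, Matrix.dotProduct_mulVec, hs, zero_dotProduct, zero_add, dotProduct_smul,
      smul_eq_mul]
  have h3 : c = 0 := by
    rw [h1, dotProduct_zero] at h2
    exact (mul_eq_zero.1 h2.symm).resolve_right hν
  have h4 : w = 0 := by
    apply hJ
    rw [h3, zero_smul, add_zero] at h1
    rw [h1, Matrix.mulVec_zero]
  funext p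
  obtain ⟨q, rfl⟩ := (finSumFinEquiv (m := n) (n := 1)).surjective p
  rcases q with q | q
  · exact congrFun h4 q
  · have : q = 0 := Subsingleton.elim _ _
    subst this
    exact h3

end Vale.Agent.P284.H998
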