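import Vale.Agent.P284.H998.Z3c
import Vale.Agent.P284.H998.Z4a
import Vale.Agent.P284.H730.S5G4

/-!
# P284 (helper998), module Z: the adjunction weight
-/

open scoped Manifold ContDiff Topology ComplexOrder Matrix
open Filter Set

noncomputable section

namespace Vale.Agent.P284.H998

open Vale.Agent.P272.K Vale.Agent.P299.H908 Vale.Agent.P284.H730.G
open Vale.Agent.P272.K.QN (jm jm_holo jm_mulVec loc loc_apply loc_contDiffAt nhds_loc
  jm_loc_right jm_loc_left)

/-- coefficients of the differential of a function -/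
def rw' {m : ℕ} (σ : Cm m → ℂ) (z : Cm m) : Cm m := fun p => fderiv ℂ σ z (Pi.single p 1)

lemma rw_dot {m : ℕ} (σ : Cm m → ℂ) (z ν : Cm m) : rw' σ z ⬝ᵥ ν = fderiv ℂ σ z ν := by
  have h : ν = ∑ i, (ν i) • (Pi.single i (1 : ℂ) : Cm m) := by
    funext j
    simp only [Finset.sum_apply, Pi.smul_apply, smul_eq_mul, Pi.single_apply, mul_ite, mul_one,
      mul_zero, Finset.sum_ite_eq, Finset.mem_univ, if_true]
  conv_rhs => rw [h, map_sum]
  simp only [dotProduct, rw', map_smul, smul_eq_mul]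
  exact Finset.sum_congr rfl fun i _ => mul_comm _ _

section
variable {n : ℕ} {X : Type} [TopologicalSpace X] [ChartedSpace (Cm (n + 1)) X]
  [IsManifold 𝓘(ℂ, Cm (n + 1)) ω X] {ι : Type} [Fintype ι] (D : PJ (n + 1) X ι) (a : ι → ℂ)
  {Y : Type} [TopologicalSpace Y] [ChartedSpace (Cm n) Y] [IsManifold 𝓘(ℂ, Cm n) ω Y]
  (j : Y → X) (w : Chart (n + 1) X → Cm (n + 1) → ℝ)

/-- `log Σ |Z_j / Z_i|²` -/
def PJ.lg {m : ℕ} {X : Type} [TopologicalSpace X] [ChartedSpace (Cm m) X] {ι : Type} [Fintype ι]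
    (D : PJ m X ι) (e : Chart m X) (i : ι) (z : Cm m) : ℝ :=
  Real.log (∑ k, ‖D.u e i k z‖ ^ 2)

/-- the residue factor -/
def fA (e : Chart (n + 1) X) (i : ι) (c : Chart n Y) (ν : Cm (n + 1)) (ζ : Cm n) : ℂ :=
  dt (jm (loc j c e) ζ) ν / fderiv ℂ (fun z => D.sig a i (e.symm z)) (loc j c e ζ) ν

/-- the weight, computed with `e`, `i`, `ν` -/
def fW (e : Chart (n + 1) X) (i : ι) (c : Chart n Y) (ν : Cm (n + 1)) (ζ : Cm n) : ℝ :=
  w e (loc j c e ζ) + D.lg e i (loc j c e ζ) + Real.log (‖fA D a j e i c ν ζ‖ ^ 2)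

/-- `e`, `i`, `ν` can be used at `y` -/
structure Val (e : Chart (n + 1) X) (i : ι) (ν : Cm (n + 1)) (y : Y) : Prop where
  at' : At e (j y)
  ne : D.Z (j y) i ≠ 0
  nu : fderiv ℂ (fun z => D.sig a i (e.symm z)) (e (j y)) ν ≠ 0

variable {D a j w}

lemma Val.exists (hreg : ∀ y, D.RegAt a (j y)) (y : Y) :
    ∃ (e : Chart (n + 1) X) (i : ι) (ν : Cm (n + 1)), Val D a j e i ν y := by
  obtain ⟨i, hi⟩ := D.exists_ne (j y)
  have hAt : At (chartAt (Cm (n + 1)) (j y)) (j y) := ⟨chart_mem_atlas _ _, mem_chart_source _ _⟩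
  have h := hreg y _ i hAt hi
  obtain ⟨ν, hν⟩ : ∃ ν, fderiv ℂ (fun z => D.sig a i ((chartAt (Cm (n + 1)) (j y)).symm z))
      (chartAt (Cm (n + 1)) (j y) (j y)) ν ≠ 0 := by
    by_contra hcon
    push Not at hcon
    exact h (ContinuousLinearMap.ext hcon)
  exact ⟨_, i, ν, hAt, hi, hν⟩

/-- `dσ ∘ dg = 0` and the injectivity of `dg` -/
structure Emb (D : PJ (n + 1) X ι) (a : ι → ℂ) (j : Y → X) : Prop where
  hol : ContMDiff 𝓘(ℂ, Cm n) 𝓘(ℂ, Cm (n + 1)) ω j
  inj : ∀ (c : Chart n Y) (y : Y) (e : Chart (n + 1) X), At c y → At e (j y) →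
    Function.Injective (jm (loc j c e) (c y)).mulVec
  zero : ∀ y, D.sec a (j y) = 0

lemma Emb.ker (h : Emb D a j) {c : Chart n Y} {y : Y} {e : Chart (n + 1) X} (hc : At c y)
    (he : At e (j y)) {i : ι} (hi : D.Z (j y) i ≠ 0) :
    rw' (fun z => D.sig a i (e.symm z)) (e (j y)) ᵥ* jm (loc j c e) (c y) = 0 := by
  have hd : DifferentiableAt ℂ (loc j c e) (c y) :=
    (loc_contDiffAt h.hol hc he).differentiableAt (by simp)
  have hσ : DifferentiableAt ℂ (fun z => D.sig a i (e.symm z)) (loc j c e (c y)) := by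
    rw [loc_apply hc]
    exact (D.sig_hol a hi e he).differentiableAt
  have h5 := HasFDerivAt.comp (c y) hσ.hasFDerivAt hd.hasFDerivAt
  have h6 : ((fun z => D.sig a i (e.symm z)) ∘ loc j c e) =ᶠ[𝓝 (c y)] fun _ => (0 : ℂ) := by
    filter_upwards [nhds_loc h.hol.continuous hc he] with z hz
    show D.sig a i (e.symm (e (j (c.symm z)))) = 0
    rw [e.left_inv hz.2.2.2, D.sig_eq, h.zero, zero_div]
  have h7 := (h5.congr_of_eventuallyEq h6.symm).unique (hasFDerivAt_const (0 : ℂ) (c y))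
  funext q
  have h8 := congrArg (fun T : Cm n →L[ℂ] ℂ => T (Pi.single q 1)) h7
  simp only [ContinuousLinearMap.comp_apply] at h8
  rw [← rw_dot, loc_apply hc] at h8
  have h9 : fderiv ℂ (loc j c e) (c y) (Pi.single q 1) = fun p => jm (loc j c e) (c y) p q := by
    funext p
    rw [jm_mulVec hd]
    simp [Pi.single_apply]
  rw [h9] at h8
  exact h8

lemma Emb.dt_ne (h : Emb D a j) {c : Chart n Y} {y : Y} {e : Chart (n + 1) X} {i : ι}
    {ν : Cm (n + 1)} (hc : At c y) (hv : Val D a j e i ν y) :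
    dt (jm (loc j c e) (c y)) ν ≠ 0 := by
  refine dt_ne_zero (h.inj c y e hc hv.at') (h.ker hc hv.at' hv.ne) ?_
  rw [rw_dot]
  exact hv.nu

lemma Emb.fA_ne (h : Emb D a j) {c : Chart n Y} {y : Y} {e : Chart (n + 1) X} {i : ι}
    {ν : Cm (n + 1)} (hc : At c y) (hv : Val D a j e i ν y) : fA D a j e i c ν (c y) ≠ 0 := by
  refine div_ne_zero (h.dt_ne hc hv) ?_
  rw [loc_apply hc]
  exact hv.nu

/-- the functions `u` in two charts and trivialisations -/
lemma lg_trans {e e' : Chart (n + 1) X} {i i' : ι} {x : X} (he : At e x) (he' : At e' x)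
    (hi : D.Z x i ≠ 0) (hi' : D.Z x i' ≠ 0) :
    D.lg e i (e x) = D.lg e' i' (e' x) + Real.log (‖D.Z x i' / D.Z x i‖ ^ 2) := by
  have h1 : ∀ k, D.u e i k (e x) = D.u e' i' k (e' x) * (D.Z x i' / D.Z x i) := by
    intro k
    unfold PJ.u
    rw [he.left_inv, he'.left_inv, div_mul_div_cancel₀ hi']
  have h2 : 0 < ∑ k, ‖D.u e' i' k (e' x)‖ ^ 2 := by
    refine lt_of_lt_of_le ?_ (Finset.single_le_sum (f := fun k => ‖D.u e' i' k (e' x)‖ ^ 2)
      (fun k _ => by positivity) (Finset.mem_univ i'))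
    have : D.u e' i' i' (e' x) = 1 := by
      unfold PJ.u
      rw [he'.left_inv, div_self hi']
    simp [this]
  unfold PJ.lg
  rw [← Real.log_mul h2.ne' (by
    have := norm_ne_zero_iff.2 (div_ne_zero hi' hi)
    positivity)]
  congr 1
  rw [Finset.sum_mul]
  refine Finset.sum_congr rfl fun k _ => ?_
  rw [h1, norm_mul, mul_pow]

/-- the differential of `σ` in two charts and trivialisations -/
lemma dsig_trans {e e' : Chart (n + 1) X} {i i' : ι} {x : X} (he : At e x) (he' : At e' x)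
    (hi : D.Z x i ≠ 0) (hi' : D.Z x i' ≠ 0) (h0 : D.sec a x = 0) (ν : Cm (n + 1)) :
    fderiv ℂ (fun z => D.sig a i (e.symm z)) (e x) ν =
      (D.Z x i' / D.Z x i) * fderiv ℂ (fun z => D.sig a i' (e'.symm z)) (e' x)
        ((jacM e e' x).mulVec ν) := by
  have hT : DifferentiableAt ℂ (fun z => e' (e.symm z)) (e x) := transition_differentiableAt he he'
  have hTx : (fun z => e' (e.symm z)) (e x) = e' x := by simp only [he.left_inv]
  have h2 : DifferentiableAt ℂ (fun z => D.sig a i' (e'.symm z)) ((fun z => e' (e.symm z)) (e x)) := by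
    rw [hTx]
    exact (D.sig_hol a hi' e' he').differentiableAt
  have h3 := HasFDerivAt.comp (e x) h2.hasFDerivAt hT.hasFDerivAt
  have h7 : HasFDerivAt (fun z => D.Z (e.symm z) i' / D.Z (e.symm z) i)
      (fderiv ℂ (fun z => D.Z (e.symm z) i' / D.Z (e.symm z) i) (e x)) (e x) :=
    (D.hol x i hi i' e he).differentiableAt.hasFDerivAt
  have h8 := h3.mul h7
  have h5 : (fun z => D.sig a i (e.symm z)) =ᶠ[𝓝 (e x)]
      fun z => ((fun z => D.sig a i' (e'.symm z)) ∘ fun z => e' (e.symm z)) z *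
        (D.Z (e.symm z) i' / D.Z (e.symm z) i) := by
    have hc : Tendsto e.symm (𝓝 (e x)) (𝓝 x) := by
      have := (e.continuousAt_symm he.mem_target).tendsto
      rwa [he.left_inv] at this
    filter_upwards [hc.eventually ((D.opn i').mem_nhds hi'), he.nhds_at he'] with z hz hz2
    show _ = D.sig a i' (e'.symm (e' (e.symm z))) * _
    rw [hz2.2.2.left_inv]
    exact D.sig_trans a hz
  rw [(h8.congr_of_eventuallyEq h5).fderiv]
  have h10 : ((fun z => D.sig a i' (e'.symm z)) ∘ fun z => e' (e.symm z)) (e x) = 0 := by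
    show D.sig a i' (e'.symm (e' (e.symm (e x)))) = 0
    rw [he.left_inv, he'.left_inv]
    exact (D.sig_zero_iff a hi').2 h0
  have h11 : fderiv ℂ (fun z => e' (e.symm z)) (e x) ν = (jacM e e' x).mulVec ν := by
    funext p
    rw [jmat_mulVec hT]
    rfl
  rw [h10]
  simp only [add_apply, smul_apply, ContinuousLinearMap.comp_apply, zero_smul,
    zero_add, smul_eq_mul]
  rw [h11, he.left_inv]
  ring

end

end Vale.Agent.P284.H998
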