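import Vale.Agent.P284.H998.Z4b
import Vale.Agent.P299.H223.FSLocal

/-!
# P284 (helper998), module Z: the adjunction weight, invariance and positivity
-/

open scoped Manifold ContDiff Topology ComplexOrder Matrix
open Filter Set

noncomputable section

namespace Vale.Agent.P284.H998

open Vale.Agent.P272.K Vale.Agent.P299.H908 Vale.Agent.P284.H730.G
open Vale.Agent.P272.K.QN (jm jm_holo jm_mulVec loc loc_apply loc_contDiffAt nhds_loc
  jm_loc_right jm_loc_left)

section
variable {n : ℕ} {X : Type} [TopologicalSpace X] [ChartedSpace (Cm (n + 1)) X]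
  [IsManifold 𝓘(ℂ, Cm (n + 1)) ω X] {ι : Type} [Fintype ι] {D : PJ (n + 1) X ι} {a : ι → ℂ}
  {Y : Type} [TopologicalSpace Y] [ChartedSpace (Cm n) Y] [IsManifold 𝓘(ℂ, Cm n) ω Y]
  {j : Y → X} {w : Chart (n + 1) X → Cm (n + 1) → ℝ}

lemma log_norm_sq_mul {x y : ℂ} (hx : x ≠ 0) (hy : y ≠ 0) :
    Real.log (‖x * y‖ ^ 2) = Real.log (‖x‖ ^ 2) + Real.log (‖y‖ ^ 2) := by
  rw [norm_mul, mul_pow, Real.log_mul] <;> positivity

/-- independence of `e`, `i`, `ν` -/
theorem fW_indep (h : Emb D a j) (hw : IsCanonicalMetric w) {c : Chart n Y} {y : Y} (hc : At c y)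
    {e e' : Chart (n + 1) X} {i i' : ι} {ν ν' : Cm (n + 1)} (hv : Val D a j e i ν y)
    (hv' : Val D a j e' i' ν' y) :
    fW D a j w e i c ν (c y) = fW D a j w e' i' c ν' (c y) := by
  set T := jacM e e' (j y) with hT
  set G := jm (loc j c e) (c y) with hG
  set ρ := D.Z (j y) i' / D.Z (j y) i with hρ
  have hρ0 : ρ ≠ 0 := div_ne_zero hv'.ne hv.ne
  have hT0 : T.det ≠ 0 := jacM_det_ne_zero hv.at' hv'.at'
  have hG' : jm (loc j c e') (c y) = T * G := jm_loc_right h.hol hc hv.at' hv'.at'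
  have hS : fderiv ℂ (fun z => D.sig a i (e.symm z)) (e (j y)) ν =
      ρ * fderiv ℂ (fun z => D.sig a i' (e'.symm z)) (e' (j y)) (T.mulVec ν) :=
    dsig_trans hv.at' hv'.at' hv.ne hv'.ne (h.zero y) ν
  have hSne : fderiv ℂ (fun z => D.sig a i' (e'.symm z)) (e' (j y)) (T.mulVec ν) ≠ 0 := by
    intro h0
    apply hv.nu
    rw [hS, h0, mul_zero]
  have hratio := dt_ratio (J := jm (loc j c e') (c y))
    (s := rw' (fun z => D.sig a i' (e'.symm z)) (e' (j y))) (h.inj c y e' hc hv'.at')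
    (h.ker hc hv'.at' hv'.ne) (ν := T.mulVec ν) (ν' := ν') (by rw [rw_dot]; exact hSne)
  rw [rw_dot, rw_dot] at hratio
  have hdt : dt (jm (loc j c e') (c y)) (T.mulVec ν) = T.det * dt G ν := by
    rw [hG', dt_mul_left]
  rw [hdt] at hratio
  have hA : fA D a j e' i' c ν' (c y) = T.det * ρ * fA D a j e i c ν (c y) := by
    unfold fA
    rw [loc_apply hc, loc_apply hc, div_eq_iff hv'.nu]
    have h1 : dt (jm (loc j c e') (c y)) ν' =
        T.det * dt G ν * fderiv ℂ (fun z => D.sig a i' (e'.symm z)) (e' (j y)) ν' /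
          fderiv ℂ (fun z => D.sig a i' (e'.symm z)) (e' (j y)) (T.mulVec ν) := by
      rw [eq_div_iff hSne]
      exact hratio
    have key : ∀ t r d s s' : ℂ, r ≠ 0 → s ≠ 0 → t * d * s' / s = t * r * (d / (r * s)) * s' := by
      intro t r d s s' hr hs
      field_simp
    rw [h1, hS]
    exact key _ _ _ _ _ hρ0 hSne
  have hA0 := h.fA_ne hc hv
  unfold fW
  rw [hA, log_norm_sq_mul (mul_ne_zero hT0 hρ0) hA0, log_norm_sq_mul hT0 hρ0, loc_apply hc,
    loc_apply hc, hw.change e e' (j y) hv.at' hv'.at', lg_trans hv.at' hv'.at' hv.ne hv'.ne]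
  ring

/-- change of the chart of `Y` -/
theorem fW_change (h : Emb D a j) {c c' : Chart n Y} {y : Y} (hc : At c y)
    (hc' : At c' y) {e : Chart (n + 1) X} {i : ι} {ν : Cm (n + 1)} (hv : Val D a j e i ν y) :
    fW D a j w e i c ν (c y) = fW D a j w e i c' ν (c' y) +
      Real.log (‖(jacM c c' y).det‖ ^ 2) := by
  have h1 : fA D a j e i c ν (c y) = fA D a j e i c' ν (c' y) * (jacM c c' y).det := by
    unfold fA
    rw [loc_apply hc, loc_apply hc', jm_loc_left h.hol hc hc' hv.at', dt_mul_right]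
    ring
  unfold fW
  rw [h1, log_norm_sq_mul (h.fA_ne hc' hv) (jacM_det_ne_zero hc hc'), loc_apply hc, loc_apply hc']
  ring

lemma Val.eventually (h : Emb D a j) {c : Chart n Y} {y : Y} (hc : At c y)
    {e : Chart (n + 1) X} {i : ι} {ν : Cm (n + 1)} (hv : Val D a j e i ν y) :
    ∀ᶠ z in 𝓝 (c y), z ∈ c.target ∧ At c (c.symm z) ∧ Val D a j e i ν (c.symm z) := by
  have h1 := nhds_loc h.hol.continuous hc hv.at'
  have h2 : ContinuousAt (fun z => j (c.symm z)) (c y) :=
    h.hol.continuous.continuousAt.comp (c.continuousAt_symm hc.mem_target)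
  have h2' : j (c.symm (c y)) = j y := by rw [hc.left_inv]
  have h3 : {x | D.Z x i ≠ 0} ∈ 𝓝 (j (c.symm (c y))) := by
    rw [h2']; exact (D.opn i).mem_nhds hv.ne
  have h4 : ContinuousAt (fun z => fderiv ℂ (fun z => D.sig a i (e.symm z)) (loc j c e z) ν)
      (c y) := by
    have h5 : ContinuousAt (loc j c e) (c y) := (loc_contDiffAt h.hol hc hv.at').continuousAt
    have h6 : ContinuousAt (fderiv ℂ (fun z => D.sig a i (e.symm z))) (loc j c e (c y)) := by
      rw [loc_apply hc]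
      exact (D.sig_hol a hv.ne e hv.at').fderiv.continuousAt
    exact (h6.comp h5).clm_apply continuousAt_const
  have h7 : fderiv ℂ (fun z => D.sig a i (e.symm z)) (loc j c e (c y)) ν ≠ 0 := by
    rw [loc_apply hc]; exact hv.nu
  filter_upwards [h1, h2.eventually h3, h4.eventually_ne h7] with z hz hz3 hz4
  exact ⟨hz.1, hz.2.1, hz.2.2, hz3, hz4⟩

/-- `fA` is holomorphic -/
lemma fA_holo (h : Emb D a j) {c : Chart n Y} {y : Y} (hc : At c y)
    {e : Chart (n + 1) X} {i : ι} {ν : Cm (n + 1)} (hv : Val D a j e i ν y) :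
    ContDiffAt ℂ ω (fA D a j e i c ν) (c y) := by
  have hg := loc_contDiffAt h.hol hc hv.at'
  have h1 : ContDiffAt ℂ ω (fun ζ => dt (jm (loc j c e) ζ) ν) (c y) := by
    unfold dt
    have h2 : ∀ p q, ContDiffAt ℂ ω (fun ζ => ((aug (jm (loc j c e) ζ) ν).submatrix id
        (finSumFinEquiv (m := n) (n := 1)).symm) p q) (c y) := by
      intro p q
      simp only [Matrix.submatrix_apply, id_eq]
      rcases (finSumFinEquiv (m := n) (n := 1)).symm q with r | r
      · exact jm_holo hg p r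
      · exact contDiffAt_const
    simp only [Matrix.det_apply]
    refine ContDiffAt.sum fun τ _ => ContDiffAt.const_smul _ ?_
    exact contDiffAt_prod fun p _ => h2 _ p
  have h2 : ContDiffAt ℂ ω (fun ζ => fderiv ℂ (fun z => D.sig a i (e.symm z)) (loc j c e ζ) ν)
      (c y) := by
    have h3 : ContDiffAt ℂ ω (fderiv ℂ (fun z => D.sig a i (e.symm z))) (loc j c e (c y)) := by
      rw [loc_apply hc]
      exact (D.sig_hol a hv.ne e hv.at').fderiv.contDiffAt
    exact (ContDiffAt.comp (c y) h3 hg).clm_apply contDiffAt_const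
  exact h1.div h2 (by rw [loc_apply hc]; exact hv.nu)

/-- `Σ |u_k|²` is smooth and positive -/
lemma lg_smooth {m : ℕ} {X : Type} [TopologicalSpace X] [ChartedSpace (Cm m) X] {ι : Type}
    [Fintype ι] (D : PJ m X ι) {e : Chart m X} {i : ι} {x : X} (he : At e x) (hi : D.Z x i ≠ 0) :
    ContDiffAt ℝ ∞ (D.lg e i) (e x) := by
  have h1 : ContDiffAt ℝ ∞ (fun z => ∑ k, ‖D.u e i k z‖ ^ 2) (e x) := by
    refine ContDiffAt.sum fun k _ => ?_
    have h : ContDiffAt ℝ ∞ (D.u e i k) (e x) :=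
      ((D.u_an he hi k).contDiffAt.restrict_scalars ℝ).of_le le_top
    exact h.norm_sq ℝ
  refine h1.log (ne_of_gt ?_)
  refine lt_of_lt_of_le ?_ (Finset.single_le_sum (f := fun k => ‖D.u e i k (e x)‖ ^ 2)
    (fun k _ => by positivity) (Finset.mem_univ i))
  have : D.u e i i (e x) = 1 := by
    unfold PJ.u
    rw [he.left_inv, div_self hi]
  simp [this]

/-- the complex Hessian of the weight -/
lemma fW_smooth (h : Emb D a j) (hw : IsCanonicalMetric w) {c : Chart n Y} {y : Y} (hc : At c y)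
    {e : Chart (n + 1) X} {i : ι} {ν : Cm (n + 1)} (hv : Val D a j e i ν y) :
    ContDiffAt ℝ ∞ (fW D a j w e i c ν) (c y) ∧
    cHess (fW D a j w e i c ν) (c y) = (jm (loc j c e) (c y)).transpose *
      (cHess (w e) (e (j y)) + cHess (D.lg e i) (e (j y))) *
        (jm (loc j c e) (c y)).map (starRingEnd ℂ) := by
  have hg := loc_contDiffAt h.hol hc hv.at'
  have hgR : ContDiffAt ℝ ∞ (loc j c e) (c y) := (hg.restrict_scalars ℝ).of_le le_top
  have hA := fA_holo h hc hv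
  have hA0 := h.fA_ne hc hv
  have s1 : ContDiffAt ℝ ∞ (w e) (loc j c e (c y)) := by
    rw [loc_apply hc]; exact hw.smooth e _ hv.at'
  have s2 : ContDiffAt ℝ ∞ (D.lg e i) (loc j c e (c y)) := by
    rw [loc_apply hc]; exact lg_smooth D hv.at' hv.ne
  have t1 : ContDiffAt ℝ ∞ (fun ζ => w e (loc j c e ζ)) (c y) := ContDiffAt.comp (c y) s1 hgR
  have t2 : ContDiffAt ℝ ∞ (fun ζ => D.lg e i (loc j c e ζ)) (c y) :=
    ContDiffAt.comp (c y) (g := D.lg e i) s2 hgR
  have t3 : ContDiffAt ℝ ∞ (fun ζ => Real.log (‖fA D a j e i c ν ζ‖ ^ 2)) (c y) := by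
    have h1 : ContDiffAt ℝ ∞ (fA D a j e i c ν) (c y) := (hA.restrict_scalars ℝ).of_le le_top
    exact (h1.norm_sq ℝ).log (pow_ne_zero 2 (norm_ne_zero_iff.2 hA0))
  have hle : (2 : WithTop ℕ∞) ≤ ∞ := by exact WithTop.coe_le_coe.2 le_top
  refine ⟨(t1.add t2).add t3, ?_⟩
  have e1 : cHess (fW D a j w e i c ν) (c y) =
      cHess (fun ζ => (w e (loc j c e ζ) + D.lg e i (loc j c e ζ)) +
        Real.log (‖fA D a j e i c ν ζ‖ ^ 2)) (c y) := rfl
  rw [e1, cHess_add ((t1.add t2).of_le hle) (t3.of_le hle),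
    cHess_add (t1.of_le hle) (t2.of_le hle), cHess_log_norm_sq hA hA0, add_zero,
    cHess_comp_R (s1.of_le hle) hg, cHess_comp_R (s2.of_le hle) hg, loc_apply hc]
  rw [Matrix.mul_add, Matrix.add_mul]

/-- **Adjunction.** -/
theorem exists_weight (h : Emb D a j) (hreg : ∀ y, D.RegAt a (j y)) (hw : IsCanonicalMetric w)
    (hpos : ∀ e x, At e x → ∀ i, D.Z x i ≠ 0 →
      (cHess (w e) (e x) + cHess (D.lg e i) (e x)).PosDef) :
    ∃ w' : Chart n Y → Cm n → ℝ, IsCanonicalMetric w' ∧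
      ∀ c y, At c y → (cHess (w' c) (c y)).PosDef := by
  choose E I N hE using Val.exists (D := D) (a := a) (j := j) hreg
  set w' : Chart n Y → Cm n → ℝ := fun c ζ =>
    fW D a j w (E (c.symm ζ)) (I (c.symm ζ)) c (N (c.symm ζ)) ζ with hw'
  have hev : ∀ (c : Chart n Y) (y : Y), At c y → ∀ (e : Chart (n + 1) X) (i : ι)
      (ν : Cm (n + 1)), Val D a j e i ν y → w' c =ᶠ[𝓝 (c y)] fW D a j w e i c ν := by
    intro c y hc e i ν hv
    filter_upwards [hv.eventually h hc] with z hz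
    have h1 := fW_indep h hw hz.2.1 (hE (c.symm z)) hz.2.2
    rw [c.right_inv hz.1] at h1
    exact h1
  refine ⟨w', ⟨fun c y hc => ?_, fun c c' y hc hc' => ?_⟩, fun c y hc => ?_⟩
  · exact (fW_smooth h hw hc (hE y)).1.congr_of_eventuallyEq (hev c y hc _ _ _ (hE y))
  · rw [(hev c y hc _ _ _ (hE y)).self_of_nhds, (hev c' y hc' _ _ _ (hE y)).self_of_nhds]
    exact fW_change h hc hc' (hE y)
  · rw [cHess_congr (hev c y hc _ _ _ (hE y)), (fW_smooth h hw hc (hE y)).2]
    exact pl_posDef (hpos _ _ (hE y).at' _ (hE y).ne) (h.inj c y _ hc (hE y).at')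

end

end Vale.Agent.P284.H998
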