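import Vale.Agent.P284.H998.Z3d
import Vale.Agent.P284.H998.Z4c
import Vale.Agent.P284.H212.PJ

/-!
# P284 (helper998), module Z: one hypersurface section
-/

open scoped Manifold ContDiff Topology ComplexOrder Matrix
open Filter Set

noncomputable section

namespace Vale.Agent.P284.H998

open Vale.Agent.P272.K Vale.Agent.P299.H908 Vale.Agent.P284.H730.G
open Vale.Agent.P272.K.QN (jm jm_holo jm_mulVec loc loc_apply loc_contDiffAt nhds_loc
  jm_loc_right jm_loc_left)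

/-- `D` has a positive adjoint canonical weight -/
def PosAdj {n : ℕ} {X : Type} [TopologicalSpace X] [ChartedSpace (Cm n) X] {ι : Type} [Fintype ι]
    (D : PJ n X ι) : Prop :=
  ∃ w : Chart n X → Cm n → ℝ, IsCanonicalMetric w ∧ ∀ e x, At e x → ∀ i, D.Z x i ≠ 0 →
    (cHess (w e) (e x) + cHess (D.lg e i) (e x)).PosDef

/-- one hypersurface section for `D` with a positive adjoint canonical weight -/
theorem step_of_posAdj {n R : ℕ} (hR : R ≤ n) {X : Type} [TopologicalSpace X] [T2Space X]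
    [CompactSpace X] [ChartedSpace (Cm (n + 1)) X] [IsManifold 𝓘(ℂ, Cm (n + 1)) ω X]
    {ι : Type} [Fintype ι] (D : PJ (n + 1) X ι) (hD : PosAdj D)
    {e : Chart (n + 1) X} {x₀ : X} (he : At e x₀) {W : Set X} (hW : W ∈ 𝓝 x₀)
    {f : Cm (n + 1) → Cm R} (hf : AnalyticAt ℂ f (e x₀))
    (hs : Function.Surjective (fderiv ℂ f (e x₀))) :
    ∃ (Z : Type) (_ : TopologicalSpace Z) (_ : T2Space Z) (_ : CompactSpace Z)
      (_ : ConnectedSpace Z) (_ : ChartedSpace (Cm n) Z) (_ : IsManifold 𝓘(ℂ, Cm n) ω Z)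
      (j : Z → X) (_ : ContMDiff 𝓘(ℂ, Cm n) 𝓘(ℂ, Cm (n + 1)) ω j)
      (_ : PJ n Z ι)
      (w : Chart n Z → Cm n → ℝ) (_ : IsCanonicalMetric w)
      (_ : ∀ c z, At c z → (cHess (w c) (c z)).PosDef)
      (z₁ : Z) (c : Chart n Z), At c z₁ ∧ j z₁ ∈ W ∧ At e (j z₁) ∧
        AnalyticAt ℂ (fun y => f (e (j (c.symm y)))) (c z₁) ∧
        Function.Surjective (fderiv ℂ (fun y => f (e (j (c.symm y)))) (c z₁)) := by
  obtain ⟨a, i, y, hreg, hy0, hyW, hye, hyi, hfa, hsur⟩ := exists_good D hR he hW hf hs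
  obtain ⟨V, hyV, hVcl, hVcon, hO⟩ := exists_component D a hreg hy0
  have hV0 : ∀ x ∈ V, D.sec a x = 0 := by
    obtain ⟨O, -, hVO⟩ := hO
    intro x hx
    exact (hVO.le hx).1
  have hI : ImmY (n + 1) n (Subtype.val : V → X) :=
    immY_zero D a (V := V) (fun x hx => hreg x (hV0 x hx)) hO
  letI := hI.cs
  haveI : IsManifold 𝓘(ℂ, Cm n) ω V := hI.isManifold
  haveI : CompactSpace V := isCompact_iff_compactSpace.1 hVcl.isCompact
  haveI : ConnectedSpace V := isConnected_iff_connectedSpace.1 hVcon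
  have hj : ContMDiff 𝓘(ℂ, Cm n) 𝓘(ℂ, Cm (n + 1)) ω (Subtype.val : V → X) := hI.contMDiff
  have hEmb : Emb D a (Subtype.val : V → X) := by
    refine ⟨hj, fun c y e hc he => ?_, fun y => hV0 y y.2⟩
    have h1 : Imm (n + 1) (Subtype.val : V → X) c := hc.1
    have h2 : At e ((c.symm (c y) : V) : X) := by rw [hc.left_inv]; exact he
    obtain ⟨h3, h4⟩ := h1 (c y) hc.mem_target e h2
    intro v v' hv
    apply h4
    ext p
    have h5 := jm_mulVec (F := loc (Subtype.val : V → X) c e) h3 v p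
    have h6 := jm_mulVec (F := loc (Subtype.val : V → X) c e) h3 v' p
    have h7 := congrFun hv p
    simp only [Matrix.mulVec, dotProduct] at h7
    rw [← h5, ← h6] at h7
    exact h7
  obtain ⟨w, hw, hpos⟩ := hD
  obtain ⟨w', hw', hpos'⟩ := exists_weight hEmb (fun y => hreg y (hV0 y y.2)) hw hpos
  set z₁ : V := ⟨y, hyV⟩ with hz₁
  set c : Chart n V := chartAt (Cm n) z₁ with hc
  have hcAt : At c z₁ := ⟨chart_mem_atlas _ _, mem_chart_source _ _⟩
  have hsr := surj_restr D a hV0 hI (e := e) (c := c) hcAt.1 (y := z₁) hcAt.2 hye hyi f hfa hsur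
    (hreg y hy0 e i hye hyi)
  exact ⟨V, inferInstance, inferInstance, inferInstance, inferInstance, inferInstance,
    inferInstance, Subtype.val, hj, D.restr hI, w', hw', hpos', z₁, c, hcAt, hyW, hye, hsr.1, hsr.2⟩

/-- `Z4b` -/
def PosStmt : Prop :=
  ∀ (n : ℕ) (X : Type) [TopologicalSpace X] [T2Space X] [CompactSpace X]
    [ChartedSpace (Cm n) X] [IsManifold 𝓘(ℂ, Cm n) ω X] (ι : Type) [Fintype ι] (_ : PJ n X ι),
    ∃ (κ : Type) (_ : Fintype κ) (D' : PJ n X κ), PosAdj D'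

theorem stepStmt_of (hP : PosStmt) : StepStmt := by
  intro n R hn hR X _ _ _ _ _ ι _ D e x₀ he W hW f hf hs
  obtain ⟨κ, hκ, D', hD'⟩ := hP (n + 1) X ι D
  obtain ⟨Z, h1, h2, h3, h4, h5, h6, j, h7, D'', w, h8, h9, z₁, c, h10⟩ :=
    step_of_posAdj hR D' hD' he hW hf hs
  exact ⟨Z, h1, h2, h3, h4, h5, h6, j, h7, κ, hκ, D'', w, h8, h9, z₁, c, h10⟩

end Vale.Agent.P284.H998
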